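import Vale.Agent.P032.H556.Wp2
import Vale.Agent.P032.H892.ArcK

/-!
# P032: wedge palettes, frame `Irr U T`

`Wg T x s` : the colours with limit direction `s + 3 / 2` at `x` (perpendicular to the direction `s`).

* `wg_ne`, `wg_disj`, `wg_both`, `wg_ci`, `wg_co` : rules at one direction,
* `Wm U T K a X W M` : palette words `Wp` together with the wedge palettes `M j t sd` at the same shifts; `exists_Wm`;
  `Wm.ne`, `Wm.disj`, `Wm.disj'`, `Wm.both`, `Wm.both'`, `Wm.ci_R`, `Wm.co_R`, `Wm.ci_L`, `Wm.co_L`, `Wm.sector_R`,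
  `Wm.sector_L`, `Wm.acc_R`, `Wm.acc_L`.
-/

open Set Filter Topology Metric

noncomputable section

namespace Vale.Agent.P032.H556

open Vale.Agent.P032.Six Vale.Agent.P032.Words Vale.Agent.P032.S5.H767 Vale.Agent.P032.H892
  Vale.Agent.P032.H913 Vale.Agent.P032.H357 Vale.Agent.P032.H61

variable {U : Fin 6 → Set ℂ} {T : ℂ → Set (Fin 6)} {x : ℂ} {s θ : ℝ} {P Q : Set (Fin 6)} {c : Fin 6}

/-- the colours perpendicular to the direction `s` (on the left) -/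
def Wg (T : ℂ → Set (Fin 6)) (x : ℂ) (s : ℝ) : Set (Fin 6) := {q | s + 3 / 2 ∈ DS (Sq T q) x}

theorem usc_freq' {E : Type*} [TopologicalSpace E] {A : Fin 6 → E → Prop} {g : ℝ → E} (hg : Continuous g) (s : ℝ) :
    ∀ᶠ v in 𝓝 s, {c | ∃ᶠ y in 𝓝 (g v), A c y} ⊆ {c | ∃ᶠ y in 𝓝 (g s), A c y} := by
  have h1 : ∀ c : Fin 6, ∀ᶠ v in 𝓝 s, (∃ᶠ y in 𝓝 (g v), A c y) → ∃ᶠ y in 𝓝 (g s), A c y := by
    intro c
    by_cases hc : ∃ᶠ y in 𝓝 (g s), A c y
    · exact Eventually.of_forall fun _ _ => hc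
    · rw [not_frequently] at hc
      filter_upwards [(hg.tendsto s).eventually (eventually_eventually_nhds.2 hc)] with v hv hf
      exact absurd hv (not_eventually.2 (hf.mono fun y hy => not_not.2 hy))
  filter_upwards [eventually_all.2 h1] with v hv c hc
  exact hv c hc

theorem usc_wg (T : ℂ → Set (Fin 6)) (x : ℂ) (s : ℝ) : ∀ᶠ v in 𝓝 s, Wg T x v ⊆ Wg T x s :=
  usc_freq' (E := ℝ × ℝ) (A := fun c p => p ∈ H357.PS (Sq T c) x) (g := fun v => ((0 : ℝ), v + 3 / 2))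
    (by fun_prop) s

theorem wg_per (T : ℂ → Set (Fin 6)) (x : ℂ) (s : ℝ) (n : ℤ) : Wg T x (s + 6 * n) = Wg T x s := by
  ext q
  show s + 6 * n + 3 / 2 ∈ DS (Sq T q) x ↔ s + 3 / 2 ∈ DS (Sq T q) x
  rw [show s + 6 * (n : ℝ) + 3 / 2 = s + 3 / 2 + 6 * n by ring]
  exact ds_six_int n

/-- a colour in every direction -/
theorem ds_ne (h : Irr U T) (x : ℂ) (θ : ℝ) : ∃ q, θ ∈ DS (Sq T q) x := by
  obtain ⟨q, hq⟩ := H357.exists_pure h (x := x) (θ := θ) isOpen_univ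
    (freq_curve (γ := fun r => (r, θ)) (((by fun_prop : Continuous fun r : ℝ => (r, θ)).tendsto 0).mono_left
      nhdsWithin_le_nhds) (by
        filter_upwards [self_mem_nhdsWithin] with r hr
        exact ⟨trivial, hr⟩))
  exact ⟨q, hq.mono fun p hp => hp.1⟩

theorem wg_ne (h : Irr U T) (x : ℂ) (s : ℝ) : (Wg T x s).Nonempty := ds_ne h x _

theorem ds_u (h : Irr U T) (hθ : θ ∈ DS (Sq T c) x) : θ ∈ DS (U c) x := ds_mono (sq_sub h c) hθ

/-- only one inner colour: locally solid inside -/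
theorem ev_ins (h : Irr U T) {v : ℝ} (hP : Ins T x v ⊆ {c}) :
    ∀ᶠ y in 𝓝 (pt x v), dist y x < 1 → T y = {c} := by
  have h1 : ∀ᶠ y in 𝓝 (pt x v), ∀ d, d ≠ c → ¬ (T y = {d} ∧ dist y x < 1) := by
    refine eventually_all.2 fun d => ?_
    by_cases hd : d = c
    · exact Eventually.of_forall fun y hy => absurd hd hy
    · have : ¬ ∃ᶠ y in 𝓝 (pt x v), T y = {d} ∧ dist y x < 1 := fun hf => hd (by simpa using hP hf)
      exact (not_frequently.1 this).mono fun y hy _ => hy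
  filter_upwards [eventually_eventually_nhds.2 h1] with y hy hyx
  refine Set.eq_singleton_iff_nonempty_unique_mem.2 ⟨h.ne _, fun d hd => ?_⟩
  by_contra hdc
  obtain ⟨y', h2, h3, h4⟩ := ((h.pure y d hd).and_eventually
    (Filter.Eventually.and hy ((isOpen_in x).mem_nhds hyx))).exists
  exact h3 d hdc ⟨h2, h4⟩

theorem ev_ots (h : Irr U T) {v : ℝ} (hP : Ots T x v ⊆ {c}) :
    ∀ᶠ y in 𝓝 (pt x v), 1 < dist y x → T y = {c} := by
  have h1 : ∀ᶠ y in 𝓝 (pt x v), ∀ d, d ≠ c → ¬ (T y = {d} ∧ 1 < dist y x) := by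
    refine eventually_all.2 fun d => ?_
    by_cases hd : d = c
    · exact Eventually.of_forall fun y hy => absurd hd hy
    · have : ¬ ∃ᶠ y in 𝓝 (pt x v), T y = {d} ∧ 1 < dist y x := fun hf => hd (by simpa using hP hf)
      exact (not_frequently.1 this).mono fun y hy _ => hy
  filter_upwards [eventually_eventually_nhds.2 h1] with y hy hyx
  refine Set.eq_singleton_iff_nonempty_unique_mem.2 ⟨h.ne _, fun d hd => ?_⟩
  by_contra hdc
  obtain ⟨y', h2, h3, h4⟩ := ((h.pure y d hd).and_eventually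
    (Filter.Eventually.and hy ((isOpen_out x).mem_nhds hyx))).exists
  exact h3 d hdc ⟨h2, h4⟩

theorem dir_three (v : ℝ) : dir (v + 3) = -dir v := by
  have := sub_dir (0 : ℂ) v
  rw [show pt (0 : ℂ) (v + 3) = 0 + dir (v + 3) from rfl] at this
  rw [zero_add, zero_sub] at this
  exact this.symm

theorem tendsto_move (x : ℂ) (θ v : ℝ) :
    Tendsto (fun p : ℝ × ℝ => po x p + dir v) (𝓝 ((0 : ℝ), θ)) (𝓝 (pt x v)) := by
  have := (tendsto_po x θ).add_const (dir v)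
  exact this

/-- a `c`-direction away from `pt x v`: the inside of `S(x)` at `pt x v` is not solid `c` -/
theorem hit_in (h : Irr U T) (hθ : θ ∈ DS (U c) x) {v : ℝ} (hc : Real.cos ((θ - v) * (Real.pi / 3)) < 0) :
    ¬ Ins T x v ⊆ {c} := by
  intro hP
  have e1 : Real.cos ((θ - (v + 3)) * (Real.pi / 3)) = -Real.cos ((θ - v) * (Real.pi / 3)) := by
    rw [show (θ - (v + 3)) * (Real.pi / 3) = (θ - v) * (Real.pi / 3) - Real.pi by ring, Real.cos_sub_pi]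
  have h1 := ev_in (x := x) (θ := θ) (u := v + 3) (by rw [e1]; linarith)
  obtain ⟨p, hp, h2, h3⟩ := (Frequently.and_eventually
    (show ∃ᶠ p in 𝓝 ((0 : ℝ), θ), p ∈ H357.PS (U c) x from hθ)
    (h1.and ((tendsto_move x θ v).eventually (ev_ins h hP)))).exists
  have h4 := h2 hp.1
  have e2 : dist (po x p + dir v) x = dist (po x p) (x + dir (v + 3)) := by
    rw [dir_three, dist_eq_norm, dist_eq_norm]; congr 1; ring
  have h5 := h3 (by rw [e2]; exact h4)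
  refine h.mx.free c _ (h.mem_of_single h5.le) _ (subset_closure hp.2) ?_
  rw [dist_eq_norm, add_sub_cancel_left]
  exact norm_dir v

theorem hit_out (h : Irr U T) (hθ : θ ∈ DS (U c) x) {v : ℝ} (hc : 0 < Real.cos ((θ - v) * (Real.pi / 3))) :
    ¬ Ots T x v ⊆ {c} := by
  intro hP
  have e1 : Real.cos ((θ - (v + 3)) * (Real.pi / 3)) = -Real.cos ((θ - v) * (Real.pi / 3)) := by
    rw [show (θ - (v + 3)) * (Real.pi / 3) = (θ - v) * (Real.pi / 3) - Real.pi by ring, Real.cos_sub_pi]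
  have h1 := ev_out (x := x) (θ := θ) (u := v + 3) (by rw [e1]; linarith)
  obtain ⟨p, hp, h2, h3⟩ := (Frequently.and_eventually
    (show ∃ᶠ p in 𝓝 ((0 : ℝ), θ), p ∈ H357.PS (U c) x from hθ)
    (h1.and ((tendsto_move x θ v).eventually (ev_ots h hP)))).exists
  have h4 := h2 hp.1
  have e2 : dist (po x p + dir v) x = dist (po x p) (x + dir (v + 3)) := by
    rw [dir_three, dist_eq_norm, dist_eq_norm]; congr 1; ring
  have h5 := h3 (by rw [e2]; exact h4)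
  refine h.mx.free c _ (h.mem_of_single h5.le) _ (subset_closure hp.2) ?_
  rw [dist_eq_norm, add_sub_cancel_left]
  exact norm_dir v

theorem cos_lo {ε : ℝ} (h0 : 0 < ε) (h1 : ε < 1) :
    Real.cos ((3 / 2 + ε) * (Real.pi / 3)) < 0 ∧ 0 < Real.cos ((3 / 2 - ε) * (Real.pi / 3)) ∧
      0 < Real.cos ((9 / 2 + ε) * (Real.pi / 3)) ∧ Real.cos ((9 / 2 - ε) * (Real.pi / 3)) < 0 := by
  refine ⟨cos_neg_of (by linarith) (by linarith), ray_pos h0 h1, ?_, cos_neg_of (by linarith) (by linarith)⟩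
  have := CK.cos_pos_six (b := 0) (r := 9 / 2 + ε) (by linarith) (by linarith)
  rwa [sub_zero] at this

/-- **wedges miss the letter** -/
theorem wg_disj (h : Irr U T) (I : IP U T x s P Q) (hc : c ∈ P ∪ Q) :
    s + 3 / 2 ∉ DS (U c) x ∧ s + 9 / 2 ∉ DS (U c) x := by
  obtain ⟨ε, hε, hs⟩ := Metric.nhds_basis_closedBall.mem_iff.1 I.loc
  set δ := min ε (1 / 2) with hδ
  have h0 : 0 < δ := lt_min hε (by norm_num)
  have h1 : δ < 1 := (min_le_right _ _).trans_lt (by norm_num)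
  have hF : ∀ v ∈ Icc (s - δ) (s + δ), c ∈ Pal U (pt x v) := by
    intro v hv
    have hle : δ ≤ ε := min_le_left _ _
    have : T (pt x v) = T (pt x s) := hs (by
      rw [mem_closedBall, Real.dist_eq, abs_le]
      constructor <;> linarith [hv.1, hv.2])
    refine h.sub _ ?_
    rw [this, I.union h]; exact hc
  obtain ⟨k1, k2, k3, k4⟩ := cos_lo h0 h1
  have m1 : s - δ ∈ Icc (s - δ) (s + δ) := ⟨le_rfl, by linarith⟩
  have m2 : s + δ ∈ Icc (s - δ) (s + δ) := ⟨by linarith, le_rfl⟩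
  refine ⟨fun hθ => no_ds h hF m1 m2 hθ ?_ ?_, fun hθ => no_ds h hF m2 m1 hθ ?_ ?_⟩
  · rwa [show (s + 3 / 2 - (s - δ)) = 3 / 2 + δ by ring]
  · rwa [show (s + 3 / 2 - (s + δ)) = 3 / 2 - δ by ring]
  · rwa [show (s + 9 / 2 - (s + δ)) = 9 / 2 - δ by ring]
  · rwa [show (s + 9 / 2 - (s - δ)) = 9 / 2 + δ by ring]

/-- **a wedge colour sees another colour on both sides of the letter** -/
theorem wg_both (h : Irr U T) (I : IP U T x s P Q) (hc : s + 3 / 2 ∈ DS (U c) x ∨ s + 9 / 2 ∈ DS (U c) x) :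
    ¬ P ⊆ {c} ∧ ¬ Q ⊆ {c} := by
  obtain ⟨ε, hε, hs⟩ := Metric.nhds_basis_closedBall.mem_iff.1 (I.evP.and I.evQ)
  set δ := min ε (1 / 2) with hδ
  have h0 : 0 < δ := lt_min hε (by norm_num)
  have h1 : δ < 1 := (min_le_right _ _).trans_lt (by norm_num)
  have hle : δ ≤ ε := min_le_left _ _
  obtain ⟨p1, q1⟩ := hs (show s - δ ∈ closedBall s ε by
    rw [mem_closedBall, Real.dist_eq, abs_le]; constructor <;> linarith)
  obtain ⟨p2, q2⟩ := hs (show s + δ ∈ closedBall s ε by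
    rw [mem_closedBall, Real.dist_eq, abs_le]; constructor <;> linarith)
  obtain ⟨k1, k2, k3, k4⟩ := cos_lo h0 h1
  rcases hc with hc | hc
  · have l1 := hit_in h hc (v := s - δ) (by rwa [show (s + 3 / 2 - (s - δ)) = 3 / 2 + δ by ring])
    have l2 := hit_out h hc (v := s + δ) (by rwa [show (s + 3 / 2 - (s + δ)) = 3 / 2 - δ by ring])
    rw [p1] at l1
    rw [q2] at l2
    exact ⟨l1, l2⟩
  · have l1 := hit_in h hc (v := s + δ) (by rwa [show (s + 9 / 2 - (s + δ)) = 9 / 2 - δ by ring])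
    have l2 := hit_out h hc (v := s - δ) (by rwa [show (s + 9 / 2 - (s - δ)) = 9 / 2 + δ by ring])
    rw [p2] at l1
    rw [q1] at l2
    exact ⟨l1, l2⟩

/-- a solid direction is an inner source -/
theorem ds_ci (h : Irr U T) (hM : ∀ r, θ ∈ DS (Sq T r) x → r = c) {u : ℝ}
    (hu : 0 < Real.cos ((θ - u) * (Real.pi / 3))) : Ci U c x (x + dir u) :=
  solid_ray h (fun r hr hf => hr (hM r hf)) (po_in hu)

/-- a solid direction is an outer source -/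
theorem ds_co (h : Irr U T) (hM : ∀ r, θ ∈ DS (Sq T r) x → r = c) {u : ℝ}
    (hu : Real.cos ((θ - u) * (Real.pi / 3)) < 0) : Co U c x (x + dir u) :=
  solid_ray h (fun r hr hf => hr (hM r hf)) (po_out hu)

/-- the palette words together with the wedge palettes -/
structure Wm (U : Fin 6 → Set ℂ) (T : ℂ → Set (Fin 6)) {J : Type*} (K : ℕ) (a : ℕ → ℝ) (X : J → ℂ)
    (W : J → ℕ → ℕ → ℕ → Set (Fin 6)) (M : J → ℕ → ℕ → Set (Fin 6)) : Prop where
  fam : ∀ sd, ∃ᶠ τ in sdf sd,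
    (∀ i : J × ℕ, IP U T (X i.1) (a i.2 + τ) (W i.1 i.2 sd 0) (W i.1 i.2 sd 1)) ∧
      ∀ i : J × ℕ, ∀ᶠ v in 𝓝 τ, Wg T (X i.1) (a i.2 + v) = M i.1 i.2 sd
  per : ∀ j t sd io, W j (t % (6 * K)) sd io = W j t sd io
  perM : ∀ j t sd, M j (t % (6 * K)) sd = M j t sd

/-- **Existence**, with further finite data `σ sd` -/
theorem exists_Wm' (h : Irr U T) {J : Type*} [Finite J] {K : ℕ} {a : ℕ → ℝ} (A : Tick K a) (X : J → ℂ)
    {Sg : Type*} [Finite Sg] (σ : ℕ → ℝ → Sg) :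
    ∃ (W : J → ℕ → ℕ → ℕ → Set (Fin 6)) (M : J → ℕ → ℕ → Set (Fin 6)) (c : ℕ → Sg), Wm U T K a X W M ∧
      ∀ sd, ∃ᶠ τ in sdf sd, (∀ i : J × ℕ, IP U T (X i.1) (a i.2 + τ) (W i.1 i.2 sd 0) (W i.1 i.2 sd 1)) ∧
        (∀ i : J × ℕ, ∀ᶠ v in 𝓝 τ, Wg T (X i.1) (a i.2 + v) = M i.1 i.2 sd) ∧ σ sd τ = c sd := by
  have hK : 0 < 6 * K := by have := A.pos; omega
  choose p q m c hpq using fun sd => exists_FamP'' h (fun i : J × Fin (6 * K) => X i.1)
    (fun i => a i.2) (sdf_side sd) (σ sd) (fun (i : J × Fin (6 * K)) v => Wg T (X i.1) (a i.2 + v))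
    (fun i s => (shift_tendsto' (a i.2) s).eventually (usc_wg T (X i.1) (a i.2 + s)))
  have hmul : ∀ t m : ℕ, a (t + 6 * K * m) = a t + 6 * (m : ℤ) := by
    intro t m
    have h1 := A.per_mul t (6 * m)
    rw [show t + 6 * K * m = t + 6 * m * K by ring, h1]
    push_cast; ring
  have hat : ∀ t : ℕ, a t = a (t % (6 * K)) + 6 * (((t / (6 * K) : ℕ) : ℤ) : ℝ) := by
    intro t
    have h2 := hmul (t % (6 * K)) (t / (6 * K))
    rw [Nat.mod_add_div] at h2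
    exact h2
  have key : ∀ sd, ∃ᶠ τ in sdf sd, (∀ i : J × ℕ, IP U T (X i.1) (a i.2 + τ)
      (p sd (i.1, ⟨i.2 % (6 * K), Nat.mod_lt _ hK⟩)) (q sd (i.1, ⟨i.2 % (6 * K), Nat.mod_lt _ hK⟩))) ∧
      (∀ i : J × ℕ, ∀ᶠ v in 𝓝 τ, Wg T (X i.1) (a i.2 + v) = m sd (i.1, ⟨i.2 % (6 * K), Nat.mod_lt _ hK⟩)) ∧
        σ sd τ = c sd := by
    intro sd
    refine (hpq sd).mono fun τ hτ => ⟨fun i => ?_, fun i => ?_, hτ.2.2⟩
    · obtain ⟨j, t⟩ := i
      have h1 := (hτ.1 (j, ⟨t % (6 * K), Nat.mod_lt _ hK⟩)).per ((t / (6 * K) : ℕ) : ℤ)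
      have e : a (t % (6 * K)) + τ + 6 * (((t / (6 * K) : ℕ) : ℤ) : ℝ) = a t + τ := by
        rw [hat t]; ring
      simp only at h1 ⊢
      rwa [e] at h1
    · obtain ⟨j, t⟩ := i
      filter_upwards [hτ.2.1 (j, ⟨t % (6 * K), Nat.mod_lt _ hK⟩)] with v hv
      rw [← hv, ← wg_per T (X j) (a (t % (6 * K)) + v) ((t / (6 * K) : ℕ) : ℤ)]
      congr 1
      rw [hat t]; ring
  refine ⟨fun j t sd io => if io = 0 then p sd (j, ⟨t % (6 * K), Nat.mod_lt _ hK⟩) else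
    q sd (j, ⟨t % (6 * K), Nat.mod_lt _ hK⟩), fun j t sd => m sd (j, ⟨t % (6 * K), Nat.mod_lt _ hK⟩), c,
    ⟨fun sd => ?_, fun j t sd io => ?_, fun j t sd => ?_⟩, fun sd => ?_⟩
  · exact (key sd).mono fun τ hτ => ⟨fun i => by simpa using hτ.1 i, hτ.2.1⟩
  · have e : t % (6 * K) % (6 * K) = t % (6 * K) := Nat.mod_mod _ _
    simp only [e]
  · have e : t % (6 * K) % (6 * K) = t % (6 * K) := Nat.mod_mod _ _
    simp only [e]
  · exact (key sd).mono fun τ hτ => ⟨fun i => by simpa using hτ.1 i, hτ.2⟩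

/-- **Existence** -/
theorem exists_Wm (h : Irr U T) {J : Type*} [Finite J] {K : ℕ} {a : ℕ → ℝ} (A : Tick K a) (X : J → ℂ) :
    ∃ W M, Wm U T K a X W M := by
  obtain ⟨W, M, _, h1, -⟩ := exists_Wm' h A X (fun _ _ => ())
  exact ⟨W, M, h1⟩

namespace Wm

variable {J : Type*} {K : ℕ} {a : ℕ → ℝ} {X : J → ℂ} {W : J → ℕ → ℕ → ℕ → Set (Fin 6)}
  {M : J → ℕ → ℕ → Set (Fin 6)}
variable (D : Wm U T K a X W M)
include D

theorem wp : Wp U T K a X W := ⟨fun sd => (D.fam sd).mono fun _ hτ => hτ.1, D.per⟩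

theorem at_ev {sd : ℕ} {A : ℝ → Prop} (hA : ∀ᶠ τ in sdf sd, A τ) :
    ∃ τ, A τ ∧ (∀ i : J × ℕ, IP U T (X i.1) (a i.2 + τ) (W i.1 i.2 sd 0) (W i.1 i.2 sd 1)) ∧
      ∀ i : J × ℕ, Wg T (X i.1) (a i.2 + τ) = M i.1 i.2 sd := by
  obtain ⟨τ, h1, h2⟩ := ((D.fam sd).and_eventually hA).exists
  exact ⟨τ, h2, h1.1, fun i => (h1.2 i).self_of_nhds⟩

theorem at_some (sd : ℕ) :
    ∃ τ, (∀ i : J × ℕ, IP U T (X i.1) (a i.2 + τ) (W i.1 i.2 sd 0) (W i.1 i.2 sd 1)) ∧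
      ∀ i : J × ℕ, Wg T (X i.1) (a i.2 + τ) = M i.1 i.2 sd := by
  obtain ⟨τ, -, h1⟩ := D.at_ev (sd := sd) (A := fun _ => True) (Eventually.of_forall fun _ => trivial)
  exact ⟨τ, h1⟩

/-- **M1** -/
theorem ne (h : Irr U T) (j : J) (t sd : ℕ) : (M j t sd).Nonempty := by
  obtain ⟨τ, -, h1⟩ := D.at_some sd
  rw [← h1 (j, t)]
  exact wg_ne h _ _

omit D in
theorem opp {A : Tick K a} {t : ℕ} {τ : ℝ} {c : Fin 6} {x : ℂ} (hc : c ∈ Wg T x (a (t + 3 * K) + τ)) :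
    a t + τ + 9 / 2 ∈ DS (Sq T c) x := by
  have : a (t + 3 * K) + τ + 3 / 2 ∈ DS (Sq T c) x := hc
  rw [CK.a_half A] at this
  rwa [show a t + 3 + τ + 3 / 2 = a t + τ + 9 / 2 by ring] at this

/-- **M2** -/
theorem disj (h : Irr U T) (j : J) (t sd : ℕ) : Disjoint (M j t sd) (W j t sd 0 ∪ W j t sd 1) := by
  obtain ⟨τ, h1, h2⟩ := D.at_some sd
  rw [Set.disjoint_left]
  intro c hc hc'
  rw [← h2 (j, t)] at hc
  exact (wg_disj h (h1 (j, t)) hc').1 (ds_u h hc)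

theorem disj' (h : Irr U T) (A : Tick K a) (j : J) (t sd : ℕ) :
    Disjoint (M j (t + 3 * K) sd) (W j t sd 0 ∪ W j t sd 1) := by
  obtain ⟨τ, h1, h2⟩ := D.at_some sd
  rw [Set.disjoint_left]
  intro c hc hc'
  rw [← h2 (j, t + 3 * K)] at hc
  exact (wg_disj h (h1 (j, t)) hc').2 (ds_u h (opp (A := A) hc))

/-- **M3** -/
theorem both (h : Irr U T) {j : J} {t sd : ℕ} (hc : c ∈ M j t sd) :
    ¬ W j t sd 0 ⊆ {c} ∧ ¬ W j t sd 1 ⊆ {c} := by
  obtain ⟨τ, h1, h2⟩ := D.at_some sd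
  rw [← h2 (j, t)] at hc
  exact wg_both h (h1 (j, t)) (Or.inl (ds_u h hc))

theorem both' (h : Irr U T) (A : Tick K a) {j : J} {t sd : ℕ} (hc : c ∈ M j (t + 3 * K) sd) :
    ¬ W j t sd 0 ⊆ {c} ∧ ¬ W j t sd 1 ⊆ {c} := by
  obtain ⟨τ, h1, h2⟩ := D.at_some sd
  rw [← h2 (j, t + 3 * K)] at hc
  exact wg_both h (h1 (j, t)) (Or.inr (ds_u h (opp (A := A) hc)))

/-! **M4** a solid wedge is a source -/

theorem ci_ev (h : Irr U T) {j : J} {t sd : ℕ} (hM : M j t sd ⊆ {c}) {u : ℝ}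
    (hu : ∀ᶠ τ in sdf sd, 0 < Real.cos ((ra a t + τ - u) * (Real.pi / 3))) :
    Ci U c (X j) (X j + dir u) := by
  obtain ⟨τ, h0, -, h2⟩ := D.at_ev hu
  refine ds_ci h (θ := a t + τ + 3 / 2) (fun r hr => ?_) ?_
  · have h3 : r ∈ Wg T (X j) (a t + τ) := hr
    rw [h2 (j, t)] at h3
    simpa using hM h3
  · rwa [show a t + τ + 3 / 2 - u = ra a t + τ - u by unfold ra; ring]

theorem co_ev (h : Irr U T) {j : J} {t sd : ℕ} (hM : M j t sd ⊆ {c}) {u : ℝ}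
    (hu : ∀ᶠ τ in sdf sd, Real.cos ((ra a t + τ - u) * (Real.pi / 3)) < 0) :
    Co U c (X j) (X j + dir u) := by
  obtain ⟨τ, h0, -, h2⟩ := D.at_ev hu
  refine ds_co h (θ := a t + τ + 3 / 2) (fun r hr => ?_) ?_
  · have h3 : r ∈ Wg T (X j) (a t + τ) := hr
    rw [h2 (j, t)] at h3
    simpa using hM h3
  · rwa [show a t + τ + 3 / 2 - u = ra a t + τ - u by unfold ra; ring]

omit D in
theorem ev_gap (A : Tick K a) (t : ℕ) : ∀ᶠ τ : ℝ in 𝓝[>] 0, 0 < τ ∧ ra a t + τ < ra a (t + 1) := by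
  have h1 : ∀ᶠ τ : ℝ in 𝓝[>] 0, τ < ra a (t + 1) - ra a t :=
    (eventually_lt_nhds (sub_pos.2 (CK.ra_lt A (Nat.lt_succ_self t)))).filter_mono nhdsWithin_le_nhds
  filter_upwards [self_mem_nhdsWithin, h1] with τ h2 h3
  exact ⟨h2, by linarith⟩

omit D in
theorem ev_gap' (A : Tick K a) (t : ℕ) : ∀ᶠ τ : ℝ in 𝓝[<] 0, τ < 0 ∧ ra a t < ra a (t + 1) + τ := by
  have h1 : ∀ᶠ τ : ℝ in 𝓝[<] 0, ra a t - ra a (t + 1) < τ :=
    (eventually_gt_nhds (sub_neg.2 (CK.ra_lt A (Nat.lt_succ_self t)))).filter_mono nhdsWithin_le_nhds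
  filter_upwards [self_mem_nhdsWithin, h1] with τ h2 h3
  exact ⟨h2, by linarith⟩

/-- the wedge after `t = s + d` is in the sector `t` -/
theorem ci_R (h : Irr U T) (A : Tick K a) {j : J} {s d : ℕ} (h1 : 3 * K ≤ d) (h2 : d < 6 * K)
    (hM : M j (s + d) 1 ⊆ {c}) : Ci U c (X j) (X j + dir (a s)) := by
  refine D.ci_ev h hM ?_
  rw [sdf_one]
  filter_upwards [ev_gap A (s + d)] with τ hτ
  have h3 := CK.ra_le A (show s + 3 * K ≤ s + d by omega)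
  have h4 := CK.ra_le A (show s + d + 1 ≤ s + 6 * K by omega)
  rw [CK.ra_half A] at h3
  rw [CK.ra_full A] at h4
  have h5 : ra a s = a s + 3 / 2 := rfl
  exact CK.cos_pos_six (by linarith [hτ.1]) (by linarith [hτ.2])

theorem co_R (h : Irr U T) (A : Tick K a) {j : J} {s d : ℕ} (h1 : d < 3 * K)
    (hM : M j (s + d) 1 ⊆ {c}) : Co U c (X j) (X j + dir (a s)) := by
  refine D.co_ev h hM ?_
  rw [sdf_one]
  filter_upwards [ev_gap A (s + d)] with τ hτ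
  have h3 := CK.ra_le A (show s ≤ s + d by omega)
  have h4 := CK.ra_le A (show s + d + 1 ≤ s + 3 * K by omega)
  rw [CK.ra_half A] at h4
  have h5 : ra a s = a s + 3 / 2 := rfl
  exact cos_neg_of (by linarith [hτ.1]) (by linarith [hτ.2])

/-- the wedge before `t = s + d + 1` is in the sector `s + d` -/
theorem ci_L (h : Irr U T) (A : Tick K a) {j : J} {s d : ℕ} (h1 : 3 * K ≤ d) (h2 : d < 6 * K)
    (hM : M j (s + d + 1) 0 ⊆ {c}) : Ci U c (X j) (X j + dir (a s)) := by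
  refine D.ci_ev h hM ?_
  rw [sdf_ne (by norm_num)]
  filter_upwards [ev_gap' A (s + d)] with τ hτ
  have h3 := CK.ra_le A (show s + 3 * K ≤ s + d by omega)
  have h4 := CK.ra_le A (show s + d + 1 ≤ s + 6 * K by omega)
  rw [CK.ra_half A] at h3
  rw [CK.ra_full A] at h4
  have h5 : ra a s = a s + 3 / 2 := rfl
  exact CK.cos_pos_six (by linarith [hτ.2]) (by linarith [hτ.1])

theorem co_L (h : Irr U T) (A : Tick K a) {j : J} {s d : ℕ} (h1 : d < 3 * K)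
    (hM : M j (s + d + 1) 0 ⊆ {c}) : Co U c (X j) (X j + dir (a s)) := by
  refine D.co_ev h hM ?_
  rw [sdf_ne (by norm_num)]
  filter_upwards [ev_gap' A (s + d)] with τ hτ
  have h3 := CK.ra_le A (show s ≤ s + d by omega)
  have h4 := CK.ra_le A (show s + d + 1 ≤ s + 3 * K by omega)
  rw [CK.ra_half A] at h4
  have h5 : ra a s = a s + 3 / 2 := rfl
  exact cos_neg_of (by linarith [hτ.2]) (by linarith [hτ.1])

/-! **M5** the wedge is in the sector -/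

theorem acc_R (A : Tick K a) {j : J} {t : ℕ} (hc : c ∈ M j t 1) {ε : ℝ} (hε : 0 < ε) :
    ∃ θ ∈ Ioo (ra a t) (ra a t + ε), θ < ra a (t + 1) ∧ θ ∈ DS (Sq T c) (X j) := by
  have h1 : ∀ᶠ τ : ℝ in 𝓝[>] 0, τ < ε := (eventually_lt_nhds hε).filter_mono nhdsWithin_le_nhds
  obtain ⟨τ, ⟨h2, h3⟩, -, h4⟩ := D.at_ev (sd := 1) (A := fun τ => (0 < τ ∧ ra a t + τ < ra a (t + 1)) ∧ τ < ε)
    (by rw [sdf_one]; exact (ev_gap A t).and h1)
  rw [← h4 (j, t)] at hc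
  have hc : a t + τ + 3 / 2 ∈ DS (Sq T c) (X j) := hc
  refine ⟨ra a t + τ, ⟨by linarith [h2.1], by linarith⟩, h2.2, ?_⟩
  rwa [show ra a t + τ = a t + τ + 3 / 2 by unfold ra; ring]

theorem acc_L (A : Tick K a) {j : J} {t : ℕ} (hc : c ∈ M j (t + 1) 0) {ε : ℝ} (hε : 0 < ε) :
    ∃ θ ∈ Ioo (ra a (t + 1) - ε) (ra a (t + 1)), ra a t < θ ∧ θ ∈ DS (Sq T c) (X j) := by
  have h1 : ∀ᶠ τ : ℝ in 𝓝[<] 0, -ε < τ := (eventually_gt_nhds (by linarith)).filter_mono nhdsWithin_le_nhds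
  obtain ⟨τ, ⟨h2, h3⟩, -, h4⟩ := D.at_ev (sd := 0) (A := fun τ => (τ < 0 ∧ ra a t < ra a (t + 1) + τ) ∧ -ε < τ)
    (by rw [sdf_ne (by norm_num)]; exact (ev_gap' A t).and h1)
  rw [← h4 (j, t + 1)] at hc
  have hc : a (t + 1) + τ + 3 / 2 ∈ DS (Sq T c) (X j) := hc
  refine ⟨ra a (t + 1) + τ, ⟨by linarith, by linarith [h2.1]⟩, h2.2, ?_⟩
  rwa [show ra a (t + 1) + τ = a (t + 1) + τ + 3 / 2 by unfold ra; ring]

theorem sector_R (A : Tick K a) {j : J} {t : ℕ} (hc : c ∈ M j t 1) : Cl (Sq T c) (X j) a 0 t := by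
  obtain ⟨θ, h1, h2, h3⟩ := D.acc_R A hc one_pos
  exact cl_zero.2 ⟨θ, ⟨h1.1, h2⟩, h3⟩

theorem sector_L (A : Tick K a) {j : J} {t : ℕ} (hc : c ∈ M j (t + 1) 0) : Cl (Sq T c) (X j) a 0 t := by
  obtain ⟨θ, h1, h2, h3⟩ := D.acc_L A hc one_pos
  exact cl_zero.2 ⟨θ, ⟨h2, h1.2⟩, h3⟩

end Wm

end Vale.Agent.P032.H556
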