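import Vale.Agent.P032.H61.WordK

/-!
# P032: palette words in the wild frame

Frame `Irr U T` only (no local finiteness, no connectivity).

* `Ins T x s`, `Ots T x s` : the colours of the pure points which accumulate at `pt x s` inside, outside `S(x)`.
* `IP U T x s P Q` : the palette and both sets are locally constant along `S(x)` at `pt x s`; `P = Ins T x s`,
  `Q = Ots T x s`; `IP.union`: `T (pt x s) = P ∪ Q`.
* `FamP U T l X t P Q` : `IP` for all points at arbitrarily small common shifts; `exists_FamP`.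
* `Wp U T K a X W` : `W j t sd io` = colours inside (`io = 0`) / outside (`io = 1`) of `S(X j)` just before (`sd = 0`) /
  just after (`sd = 1`) the direction `a t`; `exists_Wp`; rules `Wp.ne`, `Wp.mem`, `Wp.single`, `Wp.sixty`, `Wp.pair`,
  `Wp.foreign`, `Wp.two`, `Wp.glue_in`, `Wp.glue_out`.
-/

open Set Filter Topology Metric

noncomputable section

namespace Vale.Agent.P032.H556

open Vale.Agent.P032.Six Vale.Agent.P032.Words Vale.Agent.P032.S5.H767 Vale.Agent.P032.H892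
  Vale.Agent.P032.H913 Vale.Agent.P032.H357 Vale.Agent.P032.H61

variable {U : Fin 6 → Set ℂ} {T : ℂ → Set (Fin 6)} {x : ℂ} {s : ℝ} {P Q : Set (Fin 6)} {c : Fin 6}

/-- the inner colours of `S(x)` at the time `s` -/
def Ins (T : ℂ → Set (Fin 6)) (x : ℂ) (s : ℝ) : Set (Fin 6) :=
  {p | ∃ᶠ y in 𝓝 (pt x s), T y = {p} ∧ dist y x < 1}

/-- the outer colours of `S(x)` at the time `s` -/
def Ots (T : ℂ → Set (Fin 6)) (x : ℂ) (s : ℝ) : Set (Fin 6) :=
  {q | ∃ᶠ y in 𝓝 (pt x s), T y = {q} ∧ 1 < dist y x}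

/-- the inner colours `P` and the outer colours `Q` of `S(x)` at the time `s`, locally constant -/
structure IP (U : Fin 6 → Set ℂ) (T : ℂ → Set (Fin 6)) (x : ℂ) (s : ℝ) (P Q : Set (Fin 6)) : Prop where
  loc : ∀ᶠ v in 𝓝 s, T (pt x v) = T (pt x s)
  inn : ∀ p, p ∈ P ↔ ∃ᶠ y in 𝓝 (pt x s), T y = {p} ∧ dist y x < 1
  out : ∀ q, q ∈ Q ↔ ∃ᶠ y in 𝓝 (pt x s), T y = {q} ∧ 1 < dist y x
  evP : ∀ᶠ v in 𝓝 s, Ins T x v = P
  evQ : ∀ᶠ v in 𝓝 s, Ots T x v = Q

/-- upper semicontinuity of the set of colours `c` with `∃ᶠ y in 𝓝 (g s), A c y` -/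
theorem usc_freq {A : Fin 6 → ℂ → Prop} {g : ℝ → ℂ} (hg : Continuous g) (s : ℝ) :
    ∀ᶠ v in 𝓝 s, {c | ∃ᶠ y in 𝓝 (g v), A c y} ⊆ {c | ∃ᶠ y in 𝓝 (g s), A c y} := by
  have h1 : ∀ c : Fin 6, ∀ᶠ v in 𝓝 s, (∃ᶠ y in 𝓝 (g v), A c y) → ∃ᶠ y in 𝓝 (g s), A c y := by
    intro c
    by_cases hc : ∃ᶠ y in 𝓝 (g s), A c y
    · exact Eventually.of_forall fun _ _ => hc
    · rw [not_frequently] at hc
      filter_upwards [(hg.tendsto s).eventually (eventually_eventually_nhds.2 hc)] with v hv hf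
      exact absurd hv (not_eventually.2 (hf.mono fun y hy => not_not.2 hy))
  filter_upwards [eventually_all.2 h1] with v hv c hc
  exact hv c hc

theorem usc_ins (T : ℂ → Set (Fin 6)) (x : ℂ) (s : ℝ) : ∀ᶠ v in 𝓝 s, Ins T x v ⊆ Ins T x s :=
  usc_freq (A := fun c y => T y = {c} ∧ dist y x < 1) (continuous_pt x) s

theorem usc_ots (T : ℂ → Set (Fin 6)) (x : ℂ) (s : ℝ) : ∀ᶠ v in 𝓝 s, Ots T x v ⊆ Ots T x s :=
  usc_freq (A := fun c y => T y = {c} ∧ 1 < dist y x) (continuous_pt x) s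

/-- finitely many upper semicontinuous functions are locally constant at a common point of every open set -/
theorem usc_loc {ι : Type*} [Finite ι] (f : ι → ℝ → Set (Fin 6)) (hf : ∀ i s, ∀ᶠ v in 𝓝 s, f i v ⊆ f i s)
    {O : Set ℝ} (hO : IsOpen O) (hne : O.Nonempty) : ∃ τ ∈ O, ∀ i, ∀ᶠ v in 𝓝 τ, f i v = f i τ := by
  have := Fintype.ofFinite ι
  let F : ℝ → ℕ := fun τ => ∑ i, (f i τ).ncard
  have hF : (F '' O).Nonempty := hne.image F
  obtain ⟨_, ⟨τ, hτ, rfl⟩, hmin⟩ :=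
    WellFounded.has_min (r := ((· < ·) : ℕ → ℕ → Prop)) wellFounded_lt _ hF
  refine ⟨τ, hτ, ?_⟩
  have h1 : ∀ᶠ v in 𝓝 τ, ∀ i, f i v ⊆ f i τ := eventually_all.2 fun i => hf i τ
  have h3 : ∀ᶠ v in 𝓝 τ, ∀ i, f i v = f i τ := by
    filter_upwards [h1, hO.mem_nhds hτ] with v h4 h5 i
    have h6 : F τ ≤ F v := not_lt.1 (hmin _ ⟨v, h5, rfl⟩)
    have h7 : ∀ i ∈ Finset.univ, (f i v).ncard ≤ (f i τ).ncard :=
      fun i _ => Set.ncard_le_ncard (h4 i) (Set.toFinite _)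
    have h8 : F v = F τ := le_antisymm (Finset.sum_le_sum h7) h6
    have h9 := (Finset.sum_eq_sum_iff_of_le h7).1 h8 i (Finset.mem_univ i)
    exact Set.eq_of_subset_of_ncard_le (h4 i) h9.ge (Set.toFinite _)
  intro i
  filter_upwards [h3] with v hv
  exact hv i

theorem shift_tendsto (c τ : ℝ) : Tendsto (fun v : ℝ => v - c) (𝓝 (c + τ)) (𝓝 τ) := by
  have h5 : Continuous fun v : ℝ => v - c := by fun_prop
  have h6 := h5.tendsto (c + τ)
  rwa [add_sub_cancel_left] at h6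

theorem shift_tendsto' (c τ : ℝ) : Tendsto (fun v : ℝ => c + v) (𝓝 τ) (𝓝 (c + τ)) := by
  have h5 : Continuous fun v : ℝ => c + v := by fun_prop
  exact h5.tendsto τ

/-- palettes, inner and outer colours are locally constant at a common shift in every open set; further upper
semicontinuous functions `f` may be added -/
theorem loc_open3 (h : Irr U T) {J ι : Type*} [Finite J] [Finite ι] (x : J → ℂ) (t : J → ℝ)
    (f : ι → ℝ → Set (Fin 6)) (hf : ∀ i s, ∀ᶠ v in 𝓝 s, f i v ⊆ f i s) {O : Set ℝ} (hO : IsOpen O)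
    (hne : O.Nonempty) :
    ∃ τ ∈ O, (∀ j, (∀ᶠ v in 𝓝 (t j + τ), T (pt (x j) v) = T (pt (x j) (t j + τ))) ∧
      (∀ᶠ v in 𝓝 (t j + τ), Ins T (x j) v = Ins T (x j) (t j + τ)) ∧
      ∀ᶠ v in 𝓝 (t j + τ), Ots T (x j) v = Ots T (x j) (t j + τ)) ∧ ∀ i, ∀ᶠ v in 𝓝 τ, f i v = f i τ := by
  let F : ((J ⊕ J) ⊕ J) ⊕ ι → ℝ → Set (Fin 6) := fun i v =>
    Sum.elim (Sum.elim (Sum.elim (fun j => T (pt (x j) (t j + v))) fun j => Ins T (x j) (t j + v))
      fun j => Ots T (x j) (t j + v)) (fun i => f i v) i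
  have hF : ∀ i s, ∀ᶠ v in 𝓝 s, F i v ⊆ F i s := by
    rintro (((j | j) | j) | i) s
    · have h2 : Continuous fun v : ℝ => pt (x j) (t j + v) := (continuous_pt (x j)).comp (by fun_prop)
      exact (h2.tendsto s).eventually (h.nhd _)
    · exact (shift_tendsto' (t j) s).eventually (usc_ins T (x j) (t j + s))
    · exact (shift_tendsto' (t j) s).eventually (usc_ots T (x j) (t j + s))
    · exact hf i s
  obtain ⟨τ, hτ, h1⟩ := usc_loc F hF hO hne
  refine ⟨τ, hτ, fun j => ⟨?_, ?_, ?_⟩, fun i => h1 (Sum.inr i)⟩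
  · filter_upwards [(shift_tendsto (t j) τ).eventually (h1 (Sum.inl (Sum.inl (Sum.inl j))))] with v hv
    have hv : T (pt (x j) (t j + (v - t j))) = T (pt (x j) (t j + τ)) := hv
    rwa [add_sub_cancel] at hv
  · filter_upwards [(shift_tendsto (t j) τ).eventually (h1 (Sum.inl (Sum.inl (Sum.inr j))))] with v hv
    have hv : Ins T (x j) (t j + (v - t j)) = Ins T (x j) (t j + τ) := hv
    rwa [add_sub_cancel] at hv
  · filter_upwards [(shift_tendsto (t j) τ).eventually (h1 (Sum.inl (Sum.inr j)))] with v hv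
    have hv : Ots T (x j) (t j + (v - t j)) = Ots T (x j) (t j + τ) := hv
    rwa [add_sub_cancel] at hv

/-- the pure points of a colour off the circle -/
theorem freq_off (h : Irr U T) {w x : ℂ} {i : Fin 6} (hi : i ∈ T w) :
    ∃ᶠ y in 𝓝 w, T y = {i} ∧ (dist y x < 1 ∨ 1 < dist y x) := by
  rw [frequently_iff]
  intro N hN
  obtain ⟨N', hN', hNo, hwN⟩ := _root_.mem_nhds_iff.1 hN
  obtain ⟨y, hy, hyN⟩ := ((h.pure w i hi).and_eventually (hNo.mem_nhds hwN)).exists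
  have h1 : ∀ᶠ y' in 𝓝 y, T y' = {i} := by
    filter_upwards [h.nhd y] with v hv
    obtain ⟨m, hm⟩ := h.ne v
    rw [hy] at hv
    have h1 : m = i := by simpa using hv hm
    exact Subset.antisymm hv (by rintro j rfl; exact h1 ▸ hm)
  rcases lt_trichotomy (dist y x) 1 with hd | hd | hd
  · exact ⟨y, hN' hyN, hy, Or.inl hd⟩
  · obtain ⟨y', h2, h3, h4⟩ := ((freq_in hd).and_eventually (h1.and (hNo.mem_nhds hyN))).exists
    exact ⟨y', hN' h4, h3, Or.inl h2⟩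
  · exact ⟨y, hN' hyN, hy, Or.inr hd⟩

theorem sub_tendsto (s c : ℝ) : Tendsto (fun v : ℝ => v - c) (𝓝 (s + c)) (𝓝 s) := by
  have h5 : Continuous fun v : ℝ => v - c := by fun_prop
  have h6 := h5.tendsto (s + c)
  rwa [add_sub_cancel_right] at h6

namespace IP

variable (I : IP U T x s P Q)
include I

theorem eqP : Ins T x s = P := I.evP.self_of_nhds

theorem eqQ : Ots T x s = Q := I.evQ.self_of_nhds

theorem p_mem (h : Irr U T) (hc : c ∈ P) : c ∈ T (pt x s) := mem_of_freq h ((I.inn c).1 hc)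

theorem q_mem (h : Irr U T) (hc : c ∈ Q) : c ∈ T (pt x s) := mem_of_freq h ((I.out c).1 hc)

/-- **the palette is the union** -/
theorem union (h : Irr U T) : T (pt x s) = P ∪ Q := by
  refine Subset.antisymm (fun i hi => ?_) (union_subset (fun c hc => I.p_mem h hc) fun c hc => I.q_mem h hc)
  have h1 : ∃ᶠ y in 𝓝 (pt x s), (T y = {i} ∧ dist y x < 1) ∨ (T y = {i} ∧ 1 < dist y x) :=
    (freq_off (x := x) h hi).mono fun y hy => by
      rcases hy.2 with h2 | h2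
      · exact Or.inl ⟨hy.1, h2⟩
      · exact Or.inr ⟨hy.1, h2⟩
  rcases frequently_or_distrib.1 h1 with h2 | h2
  · exact Or.inl ((I.inn i).2 h2)
  · exact Or.inr ((I.out i).2 h2)

theorem p_ne (h : Irr U T) : P.Nonempty := by
  obtain ⟨p, hp⟩ := exists_pure h (isOpen_in x) (freq_in (dist_pt x s))
  exact ⟨p, (I.inn p).2 hp⟩

theorem q_ne (h : Irr U T) : Q.Nonempty := by
  obtain ⟨p, hp⟩ := exists_pure h (isOpen_out x) (freq_out (dist_pt x s))
  exact ⟨p, (I.out p).2 hp⟩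

/-- the palette is constant on an arc -/
theorem arc : ∀ᶠ y in 𝓝[sphere x 1] (pt x s), T y = T (pt x s) := ev_circle x I.loc

/-- the colours of the arc are absent at unit distance from `pt x s` off the line -/
theorem off_line (h : Irr U T) (hc : c ∈ P ∪ Q) {w : ℂ} (hw : dist (pt x s) w = 1) (h1 : w ≠ x)
    (h2 : w + x ≠ 2 * pt x s) : c ∉ Pal U w := by
  rw [← I.union h] at hc
  exact line_free h (dist_pt x s) (I.arc.mono fun _ hy => hy ▸ hc) hw h1 h2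

/-- **L2** the letter is not the single colour of `x` -/
theorem single (h : Irr U T) (hc : c ∈ Pal U x) : ¬ P ∪ Q ⊆ {c} := by
  intro hsub
  rw [← I.union h] at hsub
  exact h.mx.notMem' (h.mem_of_single hsub) (dist_pt x s) hc

/-- **L5** a point with at most three colours: a foreign colour -/
theorem foreign (h : Irr U T) (h3 : (T x).ncard ≤ 3) : ∃ c ∈ P ∪ Q, c ∉ T x := by
  have := h.not_sub' (x := x) (y := pt x s) (dist_pt x s) h3
  rwa [I.union h] at this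

/-- **L6** at least two colours of `x` are not in the letter -/
theorem two (h : Irr U T) (hx : x ∈ XX U) : 2 ≤ (T x \ (P ∪ Q)).ncard := by
  refine h.gap_two hx (dist_pt x s) (I.arc.mono fun y hy => ?_)
  rw [← I.union h, ← hy]
  exact h.sub y

theorem mem_XX (h : Irr U T) (hc : c ∈ P ∪ Q) (hx : c ∈ T x) : x ∈ XX U := by
  rw [← I.union h] at hc
  exact h.mem_XX (by rw [dist_comm]; exact dist_pt x s) hx (h.sub _ hc)

/-- a letter inside the palette of the centre has at least two colours -/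
theorem two_of_sub (h : Irr U T) (hsub : P ∪ Q ⊆ T x) : 2 ≤ (P ∪ Q).ncard := by
  by_contra hcon
  obtain ⟨c, hc⟩ : (P ∪ Q).Nonempty := (I.p_ne h).mono subset_union_left
  exact I.single h (h.sub x (hsub hc)) fun m hm =>
    (Set.ncard_le_one (Set.toFinite _)).1 (by omega) m hm c hc

theorem per (n : ℤ) : IP U T x (s + 6 * n) P Q where
  loc := by
    have h1 : Tendsto (fun v : ℝ => v - 6 * n) (𝓝 (s + 6 * n)) (𝓝 s) := by
      have h5 : Continuous fun v : ℝ => v - 6 * n := by fun_prop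
      have h6 := h5.tendsto (s + 6 * n)
      rwa [add_sub_cancel_right] at h6
    filter_upwards [h1.eventually I.loc] with v hv
    rw [pt_int, ← hv, ← pt_int x (v - 6 * n) n, sub_add_cancel]
  inn := by rw [pt_int]; exact I.inn
  out := by rw [pt_int]; exact I.out
  evP := by
    filter_upwards [(sub_tendsto s (6 * n)).eventually I.evP] with v hv
    rw [← hv]
    have e := pt_int x (v - 6 * n) n
    rw [sub_add_cancel] at e
    unfold Ins; rw [e]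
  evQ := by
    filter_upwards [(sub_tendsto s (6 * n)).eventually I.evQ] with v hv
    rw [← hv]
    have e := pt_int x (v - 6 * n) n
    rw [sub_add_cancel] at e
    unfold Ots; rw [e]

/-- **L3** the rule of 60 degrees, with `Pal` -/
theorem sixty (h : Irr U T) (hc : c ∈ P ∪ Q) : c ∉ Pal U (pt x (s + 1)) := by
  have hd := dist_pt_one x s
  refine I.off_line h hc hd ?_ ?_
  · intro e
    have := dist_pt x (s + 1)
    rw [e, dist_self] at this
    exact zero_ne_one this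
  · intro e
    have e2 : pt x (s + 1) - x = 2 * (pt x s - x) := by linear_combination e
    have e3 := dist_pt x (s + 1)
    rw [dist_eq_norm, e2, norm_mul, ← dist_eq_norm, dist_pt] at e3
    norm_num at e3

/-- **L4** parallel points of a unit pair, with `Pal` -/
theorem par (h : Irr U T) (hc : c ∈ P ∪ Q) {y : ℂ} (hxy : dist x y = 1) (h1 : pt x s ≠ y)
    (h2 : pt y s ≠ x) : c ∉ Pal U (pt y s) := by
  have e0 : pt y s = pt x s + (y - x) := by unfold pt; ring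
  have hd : dist (pt x s) (pt y s) = 1 := by
    rw [e0, dist_eq_norm]
    have : pt x s - (pt x s + (y - x)) = x - y := by ring
    rw [this, ← dist_eq_norm, hxy]
  refine I.off_line h hc hd h2 ?_
  intro e
  apply h1
  rw [e0] at e
  linear_combination -e

end IP

/-- words at common shifts -/
def FamP (U : Fin 6 → Set ℂ) (T : ℂ → Set (Fin 6)) {J : Type*} (l : Filter ℝ) (x : J → ℂ) (t : J → ℝ)
    (P Q : J → Set (Fin 6)) : Prop :=
  ∃ᶠ τ in l, ∀ j, IP U T (x j) (t j + τ) (P j) (Q j)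

/-- **Existence**, with any further finite data -/
theorem exists_FamP'' (h : Irr U T) {J ι : Type*} [Finite J] [Finite ι] (x : J → ℂ) (t : J → ℝ)
    {l : Filter ℝ} (hl : Side l) {Sg : Type*} [Finite Sg] (σ : ℝ → Sg) (f : ι → ℝ → Set (Fin 6))
    (hf : ∀ i s, ∀ᶠ v in 𝓝 s, f i v ⊆ f i s) :
    ∃ (P Q : J → Set (Fin 6)) (M : ι → Set (Fin 6)) (c : Sg), ∃ᶠ τ in l,
      (∀ j, IP U T (x j) (t j + τ) (P j) (Q j)) ∧ (∀ i, ∀ᶠ v in 𝓝 τ, f i v = M i) ∧ σ τ = c := by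
  have h2 : ∃ᶠ τ in l, ∃ pq : ((J → Set (Fin 6)) × (J → Set (Fin 6))) × (ι → Set (Fin 6)) × Sg,
      (∀ j, IP U T (x j) (t j + τ) (pq.1.1 j) (pq.1.2 j)) ∧ (∀ i, ∀ᶠ v in 𝓝 τ, f i v = pq.2.1 i) ∧
        σ τ = pq.2.2 := by
    rw [frequently_iff]
    intro S hS
    obtain ⟨O, hOS, hO, hne⟩ := hl.exists_open hS
    obtain ⟨τ, hτ, hloc, hfl⟩ := loc_open3 h x t f hf hO hne
    exact ⟨τ, hOS hτ, ((fun j => Ins T (x j) (t j + τ), fun j => Ots T (x j) (t j + τ)), (fun i => f i τ), σ τ),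
      fun j => ⟨(hloc j).1, fun p => Iff.rfl, fun p => Iff.rfl, (hloc j).2.1, (hloc j).2.2⟩, hfl, rfl⟩
  obtain ⟨pq, hpq⟩ := H61.freq_exists h2
  exact ⟨pq.1.1, pq.1.2, pq.2.1, pq.2.2, hpq⟩

theorem exists_FamP' (h : Irr U T) {J : Type*} [Finite J] (x : J → ℂ) (t : J → ℝ)
    {l : Filter ℝ} (hl : Side l) {Sg : Type*} [Finite Sg] (σ : ℝ → Sg) :
    ∃ (P Q : J → Set (Fin 6)) (c : Sg), ∃ᶠ τ in l, (∀ j, IP U T (x j) (t j + τ) (P j) (Q j)) ∧ σ τ = c := by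
  obtain ⟨P, Q, _, c, h1⟩ := exists_FamP'' h x t hl σ (ι := Empty) (fun i => i.elim) (fun i => i.elim)
  exact ⟨P, Q, c, h1.mono fun τ hτ => ⟨hτ.1, hτ.2.2⟩⟩

/-- **Existence** -/
theorem exists_FamP (h : Irr U T) {J : Type*} [Finite J] (x : J → ℂ) (t : J → ℝ)
    {l : Filter ℝ} (hl : Side l) : ∃ P Q : J → Set (Fin 6), FamP U T l x t P Q := by
  obtain ⟨P, Q, _, h1⟩ := exists_FamP' h x t hl (fun _ => ())
  exact ⟨P, Q, h1.mono fun τ hτ => hτ.1⟩

namespace FamP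

variable {J : Type*} {l : Filter ℝ} {X : J → ℂ} {t : J → ℝ} {P Q : J → Set (Fin 6)}
variable (F : FamP U T l X t P Q)
include F

theorem exists_at {A : ℝ → Prop} (hA : ∀ᶠ τ in l, A τ) :
    ∃ τ, A τ ∧ ∀ j, IP U T (X j) (t j + τ) (P j) (Q j) := by
  obtain ⟨τ, h1, h2⟩ := (F.and_eventually hA).exists
  exact ⟨τ, h2, h1⟩

theorem some_at : ∃ τ, ∀ j, IP U T (X j) (t j + τ) (P j) (Q j) := by
  obtain ⟨τ, -, h1⟩ := F.exists_at (A := fun _ => True) (Eventually.of_forall fun _ => trivial)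
  exact ⟨τ, h1⟩

theorem inn_at (hl : Side l) {j : J} (hc : c ∈ P j) :
    ∃ᶠ y in 𝓝 (pt (X j) (t j)), T y = {c} ∧ dist y (X j) < 1 :=
  freq_lim (tendsto_pt_shift hl (X j) (t j)) (F.mono fun _ hτ => ((hτ j).inn c).1 hc)

theorem out_at (hl : Side l) {j : J} (hc : c ∈ Q j) :
    ∃ᶠ y in 𝓝 (pt (X j) (t j)), T y = {c} ∧ 1 < dist y (X j) :=
  freq_lim (tendsto_pt_shift hl (X j) (t j)) (F.mono fun _ hτ => ((hτ j).out c).1 hc)

theorem mem (h : Irr U T) (hl : Side l) {j : J} (hc : c ∈ P j ∪ Q j) : c ∈ T (pt (X j) (t j)) := by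
  rcases hc with hc | hc
  · exact mem_of_freq h (F.inn_at hl hc)
  · exact mem_of_freq h (F.out_at hl hc)

theorem p_ne (h : Irr U T) (j : J) : (P j).Nonempty := by
  obtain ⟨τ, h1⟩ := F.some_at
  exact (h1 j).p_ne h

theorem q_ne (h : Irr U T) (j : J) : (Q j).Nonempty := by
  obtain ⟨τ, h1⟩ := F.some_at
  exact (h1 j).q_ne h

theorem single (h : Irr U T) {j : J} (hc : c ∈ Pal U (X j)) : ¬ P j ∪ Q j ⊆ {c} := by
  obtain ⟨τ, h1⟩ := F.some_at
  exact (h1 j).single h hc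

theorem foreign (h : Irr U T) {j : J} (h3 : (T (X j)).ncard ≤ 3) : ∃ c ∈ P j ∪ Q j, c ∉ T (X j) := by
  obtain ⟨τ, h1⟩ := F.some_at
  exact (h1 j).foreign h h3

theorem two (h : Irr U T) {j : J} (hx : X j ∈ XX U) : 2 ≤ (T (X j) \ (P j ∪ Q j)).ncard := by
  obtain ⟨τ, h1⟩ := F.some_at
  exact (h1 j).two h hx

theorem mem_XX (h : Irr U T) {j : J} (hc : c ∈ P j ∪ Q j) (hx : c ∈ T (X j)) : X j ∈ XX U := by
  obtain ⟨τ, h1⟩ := F.some_at
  exact (h1 j).mem_XX h hc hx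

theorem two_of_sub (h : Irr U T) {j : J} (hsub : P j ∪ Q j ⊆ T (X j)) : 2 ≤ (P j ∪ Q j).ncard := by
  obtain ⟨τ, h1⟩ := F.some_at
  exact (h1 j).two_of_sub h hsub

/-- the rule of 60 degrees -/
theorem sixty (h : Irr U T) {i j : J} (hx : X i = X j) (ht : t j = t i + 1) :
    Disjoint (P i ∪ Q i) (P j ∪ Q j) := by
  obtain ⟨τ, h1⟩ := F.some_at
  rw [Set.disjoint_left]
  intro c hc hc'
  have h2 := (h1 i).sixty h hc
  have h3 := (h1 j).union h
  refine h2 (h.sub _ ?_)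
  rw [hx, show t i + τ + 1 = t j + τ by rw [ht]; ring, h3]
  exact hc'

/-- parallel points of a unit pair -/
theorem par (h : Irr U T) (hl : Side l) {i j : J} (hx : dist (X i) (X j) = 1) (ht : t j = t i) :
    Disjoint (P i ∪ Q i) (P j ∪ Q j) := by
  obtain ⟨τ, ⟨hn1, hn2⟩, h1⟩ := F.exists_at
    ((ev_ne hl (X i) (t i) (X j)).and (ev_ne hl (X j) (t i) (X i)))
  rw [Set.disjoint_left]
  intro c hc hc'
  have h2 := (h1 i).par h hc hx hn1 hn2
  have h3 := (h1 j).union h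
  refine h2 (h.sub _ ?_)
  rw [← ht, h3]
  exact hc'

end FamP

/-! ### tangential points -/

namespace FamP

variable {J : Type*} {X : J → ℂ} {t : J → ℝ} {P Q : J → Set (Fin 6)}

/-- inner colour, right -/
theorem tang_in_R (F : FamP U T (𝓝[>] 0) X t P Q) {j : J} (hc : c ∈ P j) :
    ∃ᶠ a in 𝓝 ((0 : ℝ), t j + 3 / 2), 0 < a.1 ∧ T (po (pt (X j) (t j)) a) = {c} ∧
      dist (po (pt (X j) (t j)) a) (X j) < 1 :=
  freq_lim (lim_R (t j)) ((F.and_eventually pos_R).mono fun τ hτ =>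
    H61.freq_po hτ.2 (chord_right (X j) (t j) τ) (((hτ.1 j).inn c).1 hc))

/-- inner colour, left -/
theorem tang_in_L (F : FamP U T (𝓝[<] 0) X t P Q) {j : J} (hc : c ∈ P j) :
    ∃ᶠ a in 𝓝 ((0 : ℝ), t j - 3 / 2), 0 < a.1 ∧ T (po (pt (X j) (t j)) a) = {c} ∧
      dist (po (pt (X j) (t j)) a) (X j) < 1 :=
  freq_lim (lim_L (t j)) ((F.and_eventually pos_L).mono fun τ hτ =>
    H61.freq_po hτ.2 (chord_left (X j) (t j) τ) (((hτ.1 j).inn c).1 hc))

theorem out_mirror {x : ℂ} {t τ : ℝ} {P Q : Set (Fin 6)} (h0 : τ ≠ 0) (h1 : |τ| < 1)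
    (I : IP U T x (t + τ) P Q) (hc : c ∈ Q) :
    ∃ᶠ y in 𝓝 (pt x (t + τ)), T y = {c} ∧ 1 < dist y x ∧ 1 < dist y (2 * pt x t - x) := by
  have h2 : ∀ᶠ y in 𝓝 (pt x (t + τ)), 1 < dist y (2 * pt x t - x) :=
    (continuous_id.dist continuous_const).continuousAt.eventually_const_lt (far_mirror h0 h1)
  exact (((I.out c).1 hc).and_eventually h2).mono fun y hy => ⟨hy.1.1, hy.1.2, hy.2⟩

/-- outer colour, right -/
theorem tang_out_R (F : FamP U T (𝓝[>] 0) X t P Q) {j : J} (hc : c ∈ Q j) :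
    ∃ᶠ a in 𝓝 ((0 : ℝ), t j + 3 / 2), 0 < a.1 ∧ T (po (pt (X j) (t j)) a) = {c} ∧
      1 < dist (po (pt (X j) (t j)) a) (X j) ∧
      1 < dist (po (pt (X j) (t j)) a) (2 * pt (X j) (t j) - X j) := by
  have h1 : ∀ᶠ τ : ℝ in 𝓝[>] 0, τ ≠ 0 ∧ |τ| < 1 := by
    filter_upwards [Ioo_mem_nhdsGT (one_pos : (0 : ℝ) < 1)] with τ hτ
    exact ⟨hτ.1.ne', by rw [abs_of_pos hτ.1]; exact hτ.2⟩
  exact freq_lim (lim_R (t j)) ((F.and_eventually (pos_R.and h1)).mono fun τ hτ =>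
    H61.freq_po hτ.2.1 (chord_right (X j) (t j) τ) (out_mirror hτ.2.2.1 hτ.2.2.2 (hτ.1 j) hc))

/-- outer colour, left -/
theorem tang_out_L (F : FamP U T (𝓝[<] 0) X t P Q) {j : J} (hc : c ∈ Q j) :
    ∃ᶠ a in 𝓝 ((0 : ℝ), t j - 3 / 2), 0 < a.1 ∧ T (po (pt (X j) (t j)) a) = {c} ∧
      1 < dist (po (pt (X j) (t j)) a) (X j) ∧
      1 < dist (po (pt (X j) (t j)) a) (2 * pt (X j) (t j) - X j) := by
  have h1 : ∀ᶠ τ : ℝ in 𝓝[<] 0, τ ≠ 0 ∧ |τ| < 1 := by
    filter_upwards [Ioo_mem_nhdsLT (by norm_num : (-1 : ℝ) < 0)] with τ hτ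
    exact ⟨hτ.2.ne, by rw [abs_of_neg hτ.2]; linarith [hτ.1]⟩
  exact freq_lim (lim_L (t j)) ((F.and_eventually (pos_L.and h1)).mono fun τ hτ =>
    H61.freq_po hτ.2.1 (chord_left (X j) (t j) τ) (out_mirror hτ.2.2.1 hτ.2.2.2 (hτ.1 j) hc))

end FamP

/-! ### all ticks -/

/-- the palette words of all points at all ticks -/
structure Wp (U : Fin 6 → Set ℂ) (T : ℂ → Set (Fin 6)) {J : Type*} (K : ℕ) (a : ℕ → ℝ) (X : J → ℂ)
    (W : J → ℕ → ℕ → ℕ → Set (Fin 6)) : Prop where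
  fam : ∀ sd, FamP U T (sdf sd) (fun i : J × ℕ => X i.1) (fun i => a i.2) (fun i => W i.1 i.2 sd 0)
    (fun i => W i.1 i.2 sd 1)
  per : ∀ j t sd io, W j (t % (6 * K)) sd io = W j t sd io

/-- **Existence**, with further finite data `σ sd` -/
theorem exists_Wp' (h : Irr U T) {J : Type*} [Finite J] {K : ℕ} {a : ℕ → ℝ} (A : Tick K a) (X : J → ℂ)
    {Sg : Type*} [Finite Sg] (σ : ℕ → ℝ → Sg) :
    ∃ (W : J → ℕ → ℕ → ℕ → Set (Fin 6)) (c : ℕ → Sg), Wp U T K a X W ∧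
      ∀ sd, ∃ᶠ τ in sdf sd, (∀ i : J × ℕ, IP U T (X i.1) (a i.2 + τ) (W i.1 i.2 sd 0) (W i.1 i.2 sd 1)) ∧
        σ sd τ = c sd := by
  have hK : 0 < 6 * K := by have := A.pos; omega
  choose p q c hpq using fun sd => exists_FamP' h (fun i : J × Fin (6 * K) => X i.1)
    (fun i => a i.2) (sdf_side sd) (σ sd)
  have hmul : ∀ t m : ℕ, a (t + 6 * K * m) = a t + 6 * (m : ℤ) := by
    intro t m
    have h1 := A.per_mul t (6 * m)
    rw [show t + 6 * K * m = t + 6 * m * K by ring, h1]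
    push_cast; ring
  have key : ∀ sd, ∃ᶠ τ in sdf sd, (∀ i : J × ℕ, IP U T (X i.1) (a i.2 + τ)
      (p sd (i.1, ⟨i.2 % (6 * K), Nat.mod_lt _ hK⟩)) (q sd (i.1, ⟨i.2 % (6 * K), Nat.mod_lt _ hK⟩))) ∧
        σ sd τ = c sd := by
    intro sd
    refine (hpq sd).mono fun τ hτ => ⟨fun i => ?_, hτ.2⟩
    obtain ⟨j, t⟩ := i
    have h1 := (hτ.1 (j, ⟨t % (6 * K), Nat.mod_lt _ hK⟩)).per ((t / (6 * K) : ℕ) : ℤ)
    have e : a (t % (6 * K)) + τ + 6 * (((t / (6 * K) : ℕ) : ℤ) : ℝ) = a t + τ := by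
      have h2 := hmul (t % (6 * K)) (t / (6 * K))
      rw [Nat.mod_add_div] at h2
      rw [h2]; ring
    simp only at h1 ⊢
    rwa [e] at h1
  refine ⟨fun j t sd io => if io = 0 then p sd (j, ⟨t % (6 * K), Nat.mod_lt _ hK⟩) else
    q sd (j, ⟨t % (6 * K), Nat.mod_lt _ hK⟩), c, ⟨fun sd => ?_, fun j t sd io => ?_⟩, fun sd => ?_⟩
  · exact (key sd).mono fun τ hτ i => by simpa using hτ.1 i
  · have e : t % (6 * K) % (6 * K) = t % (6 * K) := Nat.mod_mod _ _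
    simp only [e]
  · exact (key sd).mono fun τ hτ => ⟨fun i => by simpa using hτ.1 i, hτ.2⟩

/-- **Existence** -/
theorem exists_Wp (h : Irr U T) {J : Type*} [Finite J] {K : ℕ} {a : ℕ → ℝ} (A : Tick K a) (X : J → ℂ) :
    ∃ W, Wp U T K a X W := by
  obtain ⟨W, _, h1, -⟩ := exists_Wp' h A X (fun _ _ => ())
  exact ⟨W, h1⟩

namespace Wp

variable {J : Type*} {K : ℕ} {a : ℕ → ℝ} {X : J → ℂ} {W : J → ℕ → ℕ → ℕ → Set (Fin 6)}
variable (D : Wp U T K a X W)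
include D

theorem famR : FamP U T (𝓝[>] 0) (fun i : J × ℕ => X i.1) (fun i => a i.2) (fun i => W i.1 i.2 1 0)
    (fun i => W i.1 i.2 1 1) := by have := D.fam 1; rwa [sdf_one] at this

theorem famL : FamP U T (𝓝[<] 0) (fun i : J × ℕ => X i.1) (fun i => a i.2) (fun i => W i.1 i.2 0 0)
    (fun i => W i.1 i.2 0 1) := by have := D.fam 0; rwa [sdf_ne (by norm_num)] at this

/-- **L1** -/
theorem ne0 (h : Irr U T) (j : J) (t sd : ℕ) : (W j t sd 0).Nonempty := (D.fam sd).p_ne h (j, t)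

theorem ne1 (h : Irr U T) (j : J) (t sd : ℕ) : (W j t sd 1).Nonempty := (D.fam sd).q_ne h (j, t)

theorem mem (h : Irr U T) {j : J} {t sd : ℕ} (hc : c ∈ W j t sd 0 ∪ W j t sd 1) :
    c ∈ T (X j + dir (a t)) := (D.fam sd).mem h (sdf_side sd) (j := (j, t)) hc

/-- **L2** -/
theorem single (h : Irr U T) {j : J} {t sd : ℕ} (hc : c ∈ Pal U (X j)) :
    ¬ W j t sd 0 ∪ W j t sd 1 ⊆ {c} := (D.fam sd).single h (j := (j, t)) hc

/-- **L3** -/
theorem sixty (h : Irr U T) (A : Tick K a) {j : J} {t sd : ℕ} :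
    Disjoint (W j t sd 0 ∪ W j t sd 1) (W j (t + K) sd 0 ∪ W j (t + K) sd 1) :=
  (D.fam sd).sixty h (i := (j, t)) (j := (j, t + K)) rfl (A.per t)

/-- **L4** -/
theorem pair (h : Irr U T) {i j : J} {t sd : ℕ} (hx : dist (X i) (X j) = 1) :
    Disjoint (W i t sd 0 ∪ W i t sd 1) (W j t sd 0 ∪ W j t sd 1) :=
  (D.fam sd).par h (sdf_side sd) (i := (i, t)) (j := (j, t)) hx rfl

/-- **L5** -/
theorem foreign (h : Irr U T) {j : J} {t sd : ℕ} (h3 : (T (X j)).ncard ≤ 3) :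
    ∃ c ∈ W j t sd 0 ∪ W j t sd 1, c ∉ T (X j) := (D.fam sd).foreign h (j := (j, t)) h3

/-- **L6** -/
theorem two (h : Irr U T) {j : J} {t sd : ℕ} (hc : c ∈ W j t sd 0 ∪ W j t sd 1) (hx : c ∈ T (X j)) :
    2 ≤ (T (X j) \ (W j t sd 0 ∪ W j t sd 1)).ncard :=
  (D.fam sd).two h (j := (j, t)) ((D.fam sd).mem_XX h (j := (j, t)) hc hx)

theorem two_XX (h : Irr U T) {j : J} {t sd : ℕ} (hx : X j ∈ XX U) :
    2 ≤ (T (X j) \ (W j t sd 0 ∪ W j t sd 1)).ncard := (D.fam sd).two h (j := (j, t)) hx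

theorem two_of_sub (h : Irr U T) {j : J} {t sd : ℕ} (hsub : W j t sd 0 ∪ W j t sd 1 ⊆ T (X j)) :
    2 ≤ (W j t sd 0 ∪ W j t sd 1).ncard := (D.fam sd).two_of_sub h (j := (j, t)) hsub

/-! **L7** glue -/

theorem glue_in_R {j : J} {t : ℕ} (hc : c ∈ W j t 1 0) : Cl (Sq T c) (X j + dir (a t)) a 3 t := by
  rw [cl_pos (by norm_num)]
  refine (D.famR.tang_in_R (j := (j, t)) hc).mono fun p hp => ⟨⟨hp.1, hp.2.1⟩, zn_three.2 ?_⟩
  rw [add_sub_cancel_right]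
  exact hp.2.2

theorem glue_out_R {j : J} {t : ℕ} (hc : c ∈ W j t 1 1) : Cl (Sq T c) (X j + dir (a t)) a 2 t := by
  rw [cl_pos (by norm_num)]
  refine (D.famR.tang_out_R (j := (j, t)) hc).mono fun p hp => ⟨⟨hp.1, hp.2.1⟩, zn_two.2 ⟨?_, ?_⟩⟩
  · have e : X j + dir (a t) + dir (a t) = 2 * pt (X j) (a t) - X j := by unfold pt dir; ring
    rw [e]; exact hp.2.2.2.le
  · rw [add_sub_cancel_right]
    exact hp.2.2.1.le

theorem glue_in_L (A : Tick K a) {j : J} {t : ℕ} (hc : c ∈ W j t 0 0) :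
    Cl (Sq T c) (X j + dir (a t)) a 1 (t + 3 * K) := by
  rw [cl_pos (by norm_num), CK.ra_half A, show ra a t + 3 = a t + 9 / 2 by unfold ra; ring]
  refine H61.Wd.shift_L (P := fun p w => (0 < p.1 ∧ w ∈ Sq T c) ∧
    Zn (X j + dir (a t)) (dir (a (t + 3 * K))) 1 w) ?_ (fun r θ w h => h)
  refine (D.famL.tang_in_L (j := (j, t)) hc).mono fun p hp => ⟨⟨hp.1, hp.2.1⟩, zn_one.2 ?_⟩
  rw [CK.dir_half A, add_neg_cancel_right]
  exact hp.2.2

theorem glue_out_L (A : Tick K a) {j : J} {t : ℕ} (hc : c ∈ W j t 0 1) :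
    Cl (Sq T c) (X j + dir (a t)) a 2 (t + 3 * K) := by
  rw [cl_pos (by norm_num), CK.ra_half A, show ra a t + 3 = a t + 9 / 2 by unfold ra; ring]
  refine H61.Wd.shift_L (P := fun p w => (0 < p.1 ∧ w ∈ Sq T c) ∧
    Zn (X j + dir (a t)) (dir (a (t + 3 * K))) 2 w) ?_ (fun r θ w h => h)
  refine (D.famL.tang_out_L (j := (j, t)) hc).mono fun p hp => ⟨⟨hp.1, hp.2.1⟩, zn_two.2 ⟨?_, ?_⟩⟩
  · rw [CK.dir_half A, add_neg_cancel_right]
    exact hp.2.2.1.le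
  · rw [CK.dir_half A, sub_neg_eq_add]
    have e : X j + dir (a t) + dir (a t) = 2 * pt (X j) (a t) - X j := by unfold pt dir; ring
    rw [e]; exact hp.2.2.2.le

end Wp

end Vale.Agent.P032.H556
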