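import Vale.Agent.P032.H556.Wp2

/-!
# P032: colours on open arcs, frame `Irr U T`

For the open arc `lo < s < hi` of `S(x)` (`pt x s`, units of 60 degrees)

* `App T x lo hi q` : `q` is in the palette of a generic point (locally constant palette) of the arc,
* `Occ T x lo hi q` : `q` is in the palette of some point of the arc,
* `Fs T x lo hi q` : `q` is in the palettes of all points of the closed arc.

`fs_of_app` (A1), `fs_of_foreign` (A2), `exists_app_foreign` (A3), `App.other`, `App.three` (A4), `Wp.app_R`, `Wp.app_L`,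
`Wp.fs_R`, `Wp.fs_L` (A5), `Fs.not_occ_sixty`, `Fs.not_occ_sixty'`, `Fs.not_occ_par` (A6), `not_occ_of_cross` (A6').
-/

open Set Filter Topology Metric

noncomputable section

namespace Vale.Agent.P032.H556

open Vale.Agent.P032.Six Vale.Agent.P032.Words Vale.Agent.P032.S5.H767 Vale.Agent.P032.H892
  Vale.Agent.P032.H913 Vale.Agent.P032.H357 Vale.Agent.P032.H61

variable {U : Fin 6 → Set ℂ} {T : ℂ → Set (Fin 6)} {x y : ℂ} {lo hi : ℝ} {c d : Fin 6}

/-- the palette is locally constant along `S(x)` -/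
def Loc (T : ℂ → Set (Fin 6)) (x : ℂ) (s : ℝ) : Prop := ∀ᶠ v in 𝓝 s, T (pt x v) = T (pt x s)

/-- `c` appears on the arc (generically) -/
def App (T : ℂ → Set (Fin 6)) (x : ℂ) (lo hi : ℝ) (c : Fin 6) : Prop :=
  ∃ s ∈ Ioo lo hi, Loc T x s ∧ c ∈ T (pt x s)

/-- `c` occurs on the arc (somewhere) -/
def Occ (T : ℂ → Set (Fin 6)) (x : ℂ) (lo hi : ℝ) (c : Fin 6) : Prop := ∃ s ∈ Ioo lo hi, c ∈ T (pt x s)

/-- the arc is solid -/
def Fs (T : ℂ → Set (Fin 6)) (x : ℂ) (lo hi : ℝ) (c : Fin 6) : Prop := ∀ s ∈ Icc lo hi, c ∈ T (pt x s)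

theorem App.occ (h : App T x lo hi c) : Occ T x lo hi c := by
  obtain ⟨s, h1, -, h2⟩ := h
  exact ⟨s, h1, h2⟩

/-- generic points are dense -/
theorem exists_loc (h : Irr U T) (x : ℂ) {O : Set ℝ} (hO : IsOpen O) (hne : O.Nonempty) :
    ∃ s ∈ O, Loc T x s := by
  obtain ⟨τ, h1, h2⟩ := loc_open h (fun _ : Unit => x) (fun _ => (0 : ℝ)) hO hne
  refine ⟨τ, h1, ?_⟩
  have := h2 ()
  simpa [Loc] using this

/-- closed form: a colour of a dense set of points of the arc -/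
theorem fs_of_dense (h : Irr U T) (hlt : lo < hi) (hd : ∀ O : Set ℝ, IsOpen O → (O ∩ Ioo lo hi).Nonempty →
    ∃ s ∈ O ∩ Ioo lo hi, c ∈ T (pt x s)) : Fs T x lo hi c := by
  have hcl : IsClosed {s : ℝ | c ∈ T (pt x s)} := (h.closed c).preimage (continuous_pt x)
  intro s hs
  have h1 : s ∈ closure (Ioo lo hi) := by rw [closure_Ioo hlt.ne]; exact hs
  have h2 : s ∈ closure {s : ℝ | c ∈ T (pt x s)} := by
    rw [_root_.mem_closure_iff] at h1 ⊢
    intro O hO hsO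
    obtain ⟨v, hv, hc⟩ := hd O hO (h1 O hO hsO)
    exact ⟨v, hv.1, hc⟩
  rwa [hcl.closure_eq] at h2

/-- **A1** -/
theorem fs_of_app (h : Irr U T) (hlt : lo < hi) (hA : ∀ d, d ≠ c → ¬ App T x lo hi d) : Fs T x lo hi c := by
  refine fs_of_dense h hlt fun O hO hne => ?_
  obtain ⟨s, h1, h2⟩ := exists_loc h x (hO.inter isOpen_Ioo) hne
  obtain ⟨d, hd⟩ := h.ne (pt x s)
  by_cases hdc : d = c
  · exact ⟨s, h1, hdc ▸ hd⟩
  · exact absurd ⟨s, h1.2, h2, hd⟩ (hA d hdc)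

/-- **A2** -/
theorem fs_of_foreign (h : Irr U T) (hlt : lo < hi) (h3 : (T x).ncard ≤ 3)
    (hA : ∀ d, d ≠ c → d ∉ T x → ¬ App T x lo hi d) : Fs T x lo hi c := by
  refine fs_of_dense h hlt fun O hO hne => ?_
  obtain ⟨s, h1, h2⟩ := exists_loc h x (hO.inter isOpen_Ioo) hne
  obtain ⟨d, hd, hdx⟩ := h.not_sub' (x := x) (y := pt x s) (dist_pt x s) h3
  by_cases hdc : d = c
  · exact ⟨s, h1, hdc ▸ hd⟩
  · exact absurd ⟨s, h1.2, h2, hd⟩ (hA d hdc hdx)

/-- **A3** -/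
theorem exists_app_foreign (h : Irr U T) (hlt : lo < hi) (h3 : (T x).ncard ≤ 3) :
    ∃ d, d ∉ T x ∧ App T x lo hi d := by
  obtain ⟨s, h1, h2⟩ := exists_loc h x isOpen_Ioo (nonempty_Ioo.2 hlt)
  obtain ⟨d, hd, hdx⟩ := h.not_sub' (x := x) (y := pt x s) (dist_pt x s) h3
  exact ⟨d, hdx, s, h1, h2, hd⟩

theorem exists_app (h : Irr U T) (x : ℂ) (hlt : lo < hi) : ∃ d, App T x lo hi d := by
  obtain ⟨s, h1, h2⟩ := exists_loc h x isOpen_Ioo (nonempty_Ioo.2 hlt)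
  obtain ⟨d, hd⟩ := h.ne (pt x s)
  exact ⟨d, s, h1, h2, hd⟩

/-- **A4** -/
theorem App.other (h : Irr U T) (hA : App T x lo hi c) (hc : c ∈ Pal U x) : ∃ d, d ≠ c ∧ App T x lo hi d := by
  obtain ⟨s, h1, h2, h3⟩ := hA
  by_contra hcon
  push Not at hcon
  have h4 : T (pt x s) ⊆ {c} := fun d hd => by
    by_contra hdc
    exact hcon d hdc ⟨s, h1, h2, hd⟩
  exact h.mx.notMem' (h.mem_of_single h4) (dist_pt x s) hc

/-- **A4**, count -/
theorem App.three (h : Irr U T) (hA : App T x lo hi c) (hc : c ∈ T x) : 3 ≤ (T x).ncard := by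
  obtain ⟨s, h1, h2, h3⟩ := hA
  have h4 : x ∈ XX U := h.mem_XX (by rw [dist_comm]; exact dist_pt x s) hc (h.sub _ h3)
  have h2' : ∀ᶠ v in 𝓝 s, T (pt x v) = T (pt x s) := h2
  have h5 := h.gap_two (P := {c}) h4 (dist_pt x s)
    ((ev_circle (p := fun y => T y = T (pt x s)) x h2').mono fun y hy => by
      rw [singleton_subset_iff]
      exact h.sub y (by rw [hy]; exact h3))
  have h6 : (T x \ {c}).ncard + 1 = (T x).ncard := Set.ncard_sdiff_singleton_add_one hc (Set.toFinite _)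
  omega

/-- **A5** the letter just after `t` appears -/
theorem Wp.app_R {J : Type*} {K : ℕ} {a : ℕ → ℝ} {X : J → ℂ} {W : J → ℕ → ℕ → ℕ → Set (Fin 6)}
    (D : Wp U T K a X W) (h : Irr U T) {j : J} {t : ℕ} {hi : ℝ} (hlt : a t < hi)
    (hc : c ∈ W j t 1 0 ∪ W j t 1 1) : App T (X j) (a t) hi c := by
  have h1 : ∀ᶠ τ : ℝ in 𝓝[>] 0, τ < hi - a t :=
    (eventually_lt_nhds (sub_pos.2 hlt)).filter_mono nhdsWithin_le_nhds
  obtain ⟨τ, ⟨h2, h3⟩, h4⟩ := D.famR.exists_at (Wp.ev_small.and h1)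
  have h5 := h4 (j, t)
  exact ⟨a t + τ, ⟨by linarith [h2.1], by linarith⟩, h5.loc, by rw [h5.union h]; exact hc⟩

/-- **A5** the letter just before `t` appears -/
theorem Wp.app_L {J : Type*} {K : ℕ} {a : ℕ → ℝ} {X : J → ℂ} {W : J → ℕ → ℕ → ℕ → Set (Fin 6)}
    (D : Wp U T K a X W) (h : Irr U T) {j : J} {t : ℕ} {lo : ℝ} (hlt : lo < a t)
    (hc : c ∈ W j t 0 0 ∪ W j t 0 1) : App T (X j) lo (a t) c := by
  have h1 : ∀ᶠ τ : ℝ in 𝓝[<] 0, lo - a t < τ :=
    (eventually_gt_nhds (sub_neg.2 hlt)).filter_mono nhdsWithin_le_nhds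
  obtain ⟨τ, ⟨h2, h3⟩, h4⟩ := D.famL.exists_at (Wp.ev_small'.and h1)
  have h5 := h4 (j, t)
  exact ⟨a t + τ, ⟨by linarith, by linarith [h2.2]⟩, h5.loc, by rw [h5.union h]; exact hc⟩

/-- **A5** a solid arc is in the letter at its beginning -/
theorem Wp.fs_R {J : Type*} {K : ℕ} {a : ℕ → ℝ} {X : J → ℂ} {W : J → ℕ → ℕ → ℕ → Set (Fin 6)}
    (D : Wp U T K a X W) (h : Irr U T) {j : J} {t : ℕ} {hi : ℝ} (hlt : a t < hi)
    (hc : Fs T (X j) (a t) hi c) : c ∈ W j t 1 0 ∪ W j t 1 1 := by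
  have h1 : ∀ᶠ τ : ℝ in 𝓝[>] 0, τ < hi - a t :=
    (eventually_lt_nhds (sub_pos.2 hlt)).filter_mono nhdsWithin_le_nhds
  obtain ⟨τ, ⟨h2, h3⟩, h4⟩ := D.famR.exists_at (Wp.ev_small.and h1)
  have h5 := h4 (j, t)
  rw [← h5.union h]
  exact hc _ ⟨by linarith [h2.1], by linarith⟩

/-- **A5** a solid arc is in the letter at its end -/
theorem Wp.fs_L {J : Type*} {K : ℕ} {a : ℕ → ℝ} {X : J → ℂ} {W : J → ℕ → ℕ → ℕ → Set (Fin 6)}
    (D : Wp U T K a X W) (h : Irr U T) {j : J} {t : ℕ} {lo : ℝ} (hlt : lo < a t)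
    (hc : Fs T (X j) lo (a t) c) : c ∈ W j t 0 0 ∪ W j t 0 1 := by
  have h1 : ∀ᶠ τ : ℝ in 𝓝[<] 0, lo - a t < τ :=
    (eventually_gt_nhds (sub_neg.2 hlt)).filter_mono nhdsWithin_le_nhds
  obtain ⟨τ, ⟨h2, h3⟩, h4⟩ := D.famL.exists_at (Wp.ev_small'.and h1)
  have h5 := h4 (j, t)
  rw [← h5.union h]
  exact hc _ ⟨by linarith, by linarith [h2.2]⟩

/-! ### A6 -/

theorem line_at (h : Irr U T) {s : ℝ} (hs : s ∈ Ioo lo hi) (hF : Fs T x lo hi c) {w : ℂ}
    (hw : dist (pt x s) w = 1) (h1 : w ≠ x) (h2 : w + x ≠ 2 * pt x s) : c ∉ Pal U w := by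
  refine line_free h (dist_pt x s) ?_ hw h1 h2
  refine ev_circle x (p := fun y => c ∈ T y) ?_
  filter_upwards [isOpen_Ioo.mem_nhds hs] with v hv
  exact hF v ⟨hv.1.le, hv.2.le⟩

theorem not_pal_sixty (h : Irr U T) {s : ℝ} (hs : s ∈ Ioo lo hi) (hF : Fs T x lo hi c) :
    c ∉ Pal U (pt x (s + 1)) ∧ c ∉ Pal U (pt x (s - 1)) := by
  have key : ∀ v, (v = s + 1 ∨ v = s - 1) → c ∉ Pal U (pt x v) := by
    intro v hv
    have hd : dist (pt x s) (pt x v) = 1 := by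
      rcases hv with rfl | rfl
      · exact dist_pt_one x s
      · have := dist_pt_one x (s - 1)
        rw [sub_add_cancel] at this
        rw [dist_comm]; exact this
    refine line_at h hs hF hd ?_ ?_
    · intro e
      have := dist_pt x v
      rw [e, dist_self] at this
      exact zero_ne_one this
    · intro e
      have e2 : pt x v - x = 2 * (pt x s - x) := by linear_combination e
      have e3 := dist_pt x v
      rw [dist_eq_norm, e2, norm_mul, ← dist_eq_norm, dist_pt] at e3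
      norm_num at e3
  exact ⟨key _ (Or.inl rfl), key _ (Or.inr rfl)⟩

/-- **A6** 60 degrees further -/
theorem Fs.not_occ_sixty (hF : Fs T x lo hi c) (h : Irr U T) : ¬ Occ T x (lo + 1) (hi + 1) c := by
  rintro ⟨s, hs, hc⟩
  have := (not_pal_sixty h (s := s - 1) ⟨by linarith [hs.1], by linarith [hs.2]⟩ hF).1
  rw [sub_add_cancel] at this
  exact this (h.sub _ hc)

/-- **A6** 60 degrees back -/
theorem Fs.not_occ_sixty' (hF : Fs T x lo hi c) (h : Irr U T) : ¬ Occ T x (lo - 1) (hi - 1) c := by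
  rintro ⟨s, hs, hc⟩
  have := (not_pal_sixty h (s := s + 1) ⟨by linarith [hs.1], by linarith [hs.2]⟩ hF).2
  rw [add_sub_cancel_right] at this
  exact this (h.sub _ hc)

/-- **A6** the parallel arc of a unit neighbour -/
theorem Fs.not_occ_par (hF : Fs T x lo hi c) (h : Irr U T) (hxy : dist x y = 1)
    (hn : ∀ s ∈ Ioo lo hi, pt x s ≠ y ∧ pt y s ≠ x) : ¬ Occ T y lo hi c := by
  rintro ⟨s, hs, hc⟩
  have e0 : pt y s = pt x s + (y - x) := by unfold pt; ring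
  have hd : dist (pt x s) (pt y s) = 1 := by
    rw [e0, dist_eq_norm]
    have : pt x s - (pt x s + (y - x)) = x - y := by ring
    rw [this, ← dist_eq_norm, hxy]
  refine line_at h hs hF hd (hn s hs).2 ?_ (h.sub _ hc)
  intro e
  apply (hn s hs).1
  rw [e0] at e
  linear_combination -e

/-- **A6'** a connected set of colour `c` crossing the circles about all points of the arc -/
theorem not_occ_of_cross (h : Irr U T) {R : Set ℂ} (hR : IsPreconnected R) (hRc : R ⊆ closure (U c))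
    (hx : ∀ s ∈ Ioo lo hi, (∃ p ∈ R, dist p (pt x s) < 1) ∧ ∃ p ∈ R, 1 < dist p (pt x s)) :
    ¬ Occ T x lo hi c := by
  rintro ⟨s, hs, hc⟩
  obtain ⟨⟨p, hp, h1⟩, p', hp', h2⟩ := hx s hs
  exact h.mx.wlemma hR hRc hp hp' h1 h2 (h.sub _ hc)

/-- **2C**, interval form with `Occ` as upper bound: two colours on an arc and on its parallel -/
theorem pair_single (h : Irr U T) {p q : ℂ} (hpq : dist q p = 1) {i j : Fin 6}
    (hp : T p ⊆ {i, j}) (hq : T q ⊆ {i, j}) : (T p = {i} ∧ T q = {j}) ∨ (T p = {j} ∧ T q = {i}) := by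
  have h2 : ∀ {p q : ℂ}, dist q p = 1 → T p ⊆ {i, j} → T q ⊆ {i, j} → (T p).ncard ≤ 1 := by
    intro p q hpq hp hq
    by_contra hcon
    have hle : (T p).ncard ≤ ({i, j} : Set (Fin 6)).ncard := Set.ncard_le_ncard hp (Set.toFinite _)
    have h22 : ({i, j} : Set (Fin 6)).ncard ≤ 2 := (Set.ncard_insert_le _ _).trans (by rw [Set.ncard_singleton])
    have e : T p = {i, j} := Set.eq_of_subset_of_ncard_le hp (by omega) (Set.toFinite _)
    exact h.not_sub hpq (by omega) (by rw [e]; exact hq)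
  have k1 := h2 hpq hp hq
  have k2 := h2 (by rw [dist_comm]; exact hpq) hq hp
  obtain ⟨m, hm⟩ := h.ne p
  obtain ⟨n, hn⟩ := h.ne q
  have e1 : T p = {m} := Set.Subset.antisymm (fun r hr => (Set.ncard_le_one (Set.toFinite _)).1 k1 r hr m hm)
    (by rintro r rfl; exact hm)
  have e2 : T q = {n} := Set.Subset.antisymm (fun r hr => (Set.ncard_le_one (Set.toFinite _)).1 k2 r hr n hn)
    (by rintro r rfl; exact hn)
  have hmn : m ≠ n := by
    rintro rfl
    exact h.mx.notMem' (h.mem_of_single e1.le) (by rw [dist_comm]; exact hpq) (h.sub q hn)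
  have hm' := hp hm
  have hn' := hq hn
  rw [e1, e2]
  rcases hm' with rfl | hm' <;> rcases hn' with rfl | hn'
  · exact absurd rfl hmn
  · rw [mem_singleton_iff.1 hn']; exact Or.inl ⟨rfl, rfl⟩
  · rw [mem_singleton_iff.1 hm']; exact Or.inr ⟨rfl, rfl⟩
  · exact absurd (by rw [mem_singleton_iff.1 hm', mem_singleton_iff.1 hn']) hmn

/-- **2CI** : two continuous points of unit distance with palettes inside `{i, j}` along an interval are constant -/
theorem two_ci (h : Irr U T) {f g : ℝ → ℂ} (hf : Continuous f) {i j : Fin 6}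
    (hfg : ∀ s ∈ Ioo lo hi, dist (g s) (f s) = 1)
    (h1 : ∀ s ∈ Ioo lo hi, T (f s) ⊆ {i, j}) (h2 : ∀ s ∈ Ioo lo hi, T (g s) ⊆ {i, j}) :
    (∀ s ∈ Ioo lo hi, T (f s) = {i} ∧ T (g s) = {j}) ∨ ∀ s ∈ Ioo lo hi, T (f s) = {j} ∧ T (g s) = {i} := by
  have key : ∀ s ∈ Ioo lo hi, (T (f s) = {i} ∧ T (g s) = {j}) ∨ (T (f s) = {j} ∧ T (g s) = {i}) :=
    fun s hs => pair_single h (hfg s hs) (h1 s hs) (h2 s hs)
  by_cases hij : i = j
  · subst hij
    exact Or.inl fun s hs => (key s hs).elim id id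
  by_contra hcon
  push Not at hcon
  obtain ⟨⟨s1, hs1, h3⟩, s2, hs2, h4⟩ := hcon
  have h5 : T (f s1) = {j} := ((key s1 hs1).resolve_left fun h6 => h3 h6.1 h6.2).1
  have h6 : T (f s2) = {i} := ((key s2 hs2).resolve_right fun h6 => h4 h6.1 h6.2).1
  have hpre : IsPreconnected (Ioo lo hi) := isPreconnected_Ioo
  have ho1 : IsOpen (f ⁻¹' {w | T w = {i}}) := (isOpen_single h i).preimage hf
  have ho2 : IsOpen (f ⁻¹' {w | T w = {j}}) := (isOpen_single h j).preimage hf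
  obtain ⟨s, hs, h7, h8⟩ := hpre _ _ ho1 ho2 (fun s hs => (key s hs).imp (fun h => h.1) fun h => h.1)
    ⟨s2, hs2, h6⟩ ⟨s1, hs1, h5⟩
  have h7 : T (f s) = {i} := h7
  have h8 : T (f s) = {j} := h8
  rw [h7] at h8
  exact hij (singleton_injective h8)

end Vale.Agent.P032.H556
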