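import Vale.Agent.P032.H556.Arc
import Vale.Agent.P032.H892.ArcK

/-!
# P032: collars of a solid half arc (rule kind SF / APSO), wild frame

`Fs T x (a t) (a t + ε) c` : the closed arc of `S(x)` just after the tick `t` belongs to `c`.  Then `U c` misses, near `x`,
the zones 2 and 3 of the ray `t` and the zone 3 of the opposite ray (`collar_R`); `collar_L` is the mirror image.
-/

open Set Filter Topology Metric

noncomputable section

namespace Vale.Agent.P032.H556

open Vale.Agent.P032.Six Vale.Agent.P032.H61 Vale.Agent.P032.H892 Vale.Agent.P032.H913 Vale.Agent.P032.S5.H767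
open Vale.Agent.P032.H357

variable {U : Fin 6 → Set ℂ} {T : ℂ → Set (Fin 6)}

theorem two_dist (x : ℂ) (s : ℝ) : dist (x + dir s) (x - dir s) = 2 := by
  rw [dist_eq_norm]
  have : x + dir s - (x - dir s) = 2 * dir s := by ring
  rw [this, norm_mul, norm_dir]; norm_num

/-- a point of the unit disc about one of two antipodal points is outside the disc about the other one -/
theorem far_of_anti {x w : ℂ} {s : ℝ} (h : dist w (x - dir s) < 1) : 1 ≤ dist w (x + dir s) := by
  have h4 := dist_triangle (x + dir s) w (x - dir s)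
  rw [two_dist, dist_comm _ w] at h4
  linarith

theorem cpos1 {y : ℝ} (h1 : -(3 / 2) < y) (h2 : y < 3 / 2) : 0 < Real.cos (y * (Real.pi / 3)) := by
  have hpi := Real.pi_pos
  exact Real.cos_pos_of_mem_Ioo ⟨by nlinarith, by nlinarith⟩

theorem cpos2 {y : ℝ} (h1 : 9 / 2 < y) (h2 : y < 15 / 2) : 0 < Real.cos (y * (Real.pi / 3)) := by
  have e : y * (Real.pi / 3) = (y - 6) * (Real.pi / 3) + 2 * Real.pi := by ring
  rw [e, Real.cos_add_two_pi]
  exact cpos1 (by linarith) (by linarith)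

theorem Fs.pal (h : Irr U T) {x : ℂ} {lo hi : ℝ} {c : Fin 6} (hF : Fs T x lo hi c) :
    ∀ s ∈ Icc lo hi, c ∈ Pal U (pt x s) := fun s hs => h.sub _ (hF s hs)

section
variable {K : ℕ} {a : ℕ → ℝ} (A : Tick K a)
include A

/-- **collars**, right: the arc just after the tick `t` is carried by `q` -/
theorem collar_R (h : Irr U T) {x : ℂ} {t : ℕ} {ε : ℝ} (hε : 0 < ε) {q : Fin 6}
    (hF : ∀ s ∈ Icc (a t) (a t + ε), q ∈ Pal U (pt x s)) :
    ¬ Cl (U q) x a 2 t ∧ ¬ Cl (U q) x a 3 t ∧ ¬ Cl (U q) x a 3 (t + 3 * K) := by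
  set δ := min ε 1 with hδ
  have hδ0 : 0 < δ := lt_min hε one_pos
  have hδ1 : δ ≤ 1 := min_le_right _ _
  have hδε : δ ≤ ε := min_le_left _ _
  have m1 : a t ∈ Icc (a t) (a t + ε) := ⟨le_rfl, by linarith⟩
  have m2 : a t + δ ∈ Icc (a t) (a t + ε) := ⟨by linarith, by linarith⟩
  have r0 : ra a t = a t + 3 / 2 := rfl
  have r2 : ra a (t + 3 * K) = a t + 9 / 2 := by rw [CK.ra_half A, r0]; ring
  have d2 : dir (a (t + 3 * K)) = -dir (a t) := CK.dir_half A t
  refine ⟨fun hc => ?_, fun hc => ?_, fun hc => ?_⟩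
  · refine no_far h hF m1 m2 (θ := ra a t) (((cl_pos (by norm_num)).1 hc).mono fun p hp => ⟨hp.1, ?_⟩)
      (cpos1 (by rw [r0]; linarith) (by rw [r0]; linarith))
    rw [← add_dir]
    exact (zn_two.1 hp.2).1
  · refine no_far h hF m1 m2 (θ := ra a t) (((cl_pos (by norm_num)).1 hc).mono fun p hp => ⟨hp.1, ?_⟩)
      (cpos1 (by rw [r0]; linarith) (by rw [r0]; linarith))
    rw [← add_dir]
    exact far_of_anti (zn_three.1 hp.2)
  · refine no_near h hF m1 m2 (θ := ra a (t + 3 * K)) (((cl_pos (by norm_num)).1 hc).mono fun p hp => ⟨hp.1, ?_⟩)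
      (cos_neg_of (by rw [r2]; linarith) (by rw [r2]; linarith))
    have h3 := zn_three.1 hp.2
    rw [d2, sub_neg_eq_add] at h3
    rw [← add_dir]
    exact h3

/-- **collars**, left: the arc just before the tick `t` is carried by `q` -/
theorem collar_L (h : Irr U T) {x : ℂ} {t : ℕ} {ε : ℝ} (hε : 0 < ε) {q : Fin 6}
    (hF : ∀ s ∈ Icc (a t - ε) (a t), q ∈ Pal U (pt x s)) :
    ¬ Cl (U q) x a 1 t ∧ ¬ Cl (U q) x a 2 (t + 3 * K) ∧ ¬ Cl (U q) x a 1 (t + 3 * K) := by
  set δ := min ε 1 with hδ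
  have hδ0 : 0 < δ := lt_min hε one_pos
  have hδ1 : δ ≤ 1 := min_le_right _ _
  have hδε : δ ≤ ε := min_le_left _ _
  have m1 : a t ∈ Icc (a t - ε) (a t) := ⟨by linarith, le_rfl⟩
  have m2 : a t - δ ∈ Icc (a t - ε) (a t) := ⟨by linarith, by linarith⟩
  have r0 : ra a t = a t + 3 / 2 := rfl
  have r2 : ra a (t + 3 * K) = a t + 9 / 2 := by rw [CK.ra_half A, r0]; ring
  have d2 : dir (a (t + 3 * K)) = -dir (a t) := CK.dir_half A t
  refine ⟨fun hc => ?_, fun hc => ?_, fun hc => ?_⟩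
  · refine no_near h hF m1 m2 (θ := ra a t) (((cl_pos (by norm_num)).1 hc).mono fun p hp => ⟨hp.1, ?_⟩)
      (cos_neg_of (by rw [r0]; linarith) (by rw [r0]; linarith))
    rw [← add_dir]
    exact zn_one.1 hp.2
  · refine no_far h hF m1 m2 (θ := ra a (t + 3 * K)) (((cl_pos (by norm_num)).1 hc).mono fun p hp => ⟨hp.1, ?_⟩)
      (cpos2 (by rw [r2]; linarith) (by rw [r2]; linarith))
    have h3 := (zn_two.1 hp.2).2
    rw [d2, sub_neg_eq_add] at h3
    rw [← add_dir]
    exact h3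
  · refine no_far h hF m1 m2 (θ := ra a (t + 3 * K)) (((cl_pos (by norm_num)).1 hc).mono fun p hp => ⟨hp.1, ?_⟩)
      (cpos2 (by rw [r2]; linarith) (by rw [r2]; linarith))
    have h3 := zn_one.1 hp.2
    rw [d2, ← sub_eq_add_neg] at h3
    rw [← add_dir]
    exact far_of_anti h3

end

end Vale.Agent.P032.H556
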