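import Vale.Agent.P032.H556.Wp3
import Vale.Agent.P032.H357.MdK
import Vale.Agent.P032.H240.W.MdW

/-!
# P032: fields `lsol` and `lhalf` of the wild model (frame `Irr U T`)

* `Wp.lhalf` : a one coloured inner / outer letter against the cells of its colour (table `vcell`),
* `Wp.lsol` : a cell of one colour against the letters (table `scell`).
-/

open Set Filter Topology Metric

noncomputable section

namespace Vale.Agent.P032.H556

open Vale.Agent.P032.Six Vale.Agent.P032.H61 Vale.Agent.P032.H892 Vale.Agent.P032.H913 Vale.Agent.P032.S5.H767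
open Vale.Agent.P032.H357 Vale.Agent.P032.H357.MK
open Vale.Agent.P032.H820.K (df ad hcell)
open Vale.Agent.P032.H240.W (scell vcell)

variable {U : Fin 6 → Set ℂ} {T : ℂ → Set (Fin 6)}

theorem cpos6 {y : ℝ} (h1 : 9 / 2 < y) (h2 : y < 15 / 2) : 0 < Real.cos (y * (Real.pi / 3)) := by
  have e : y * (Real.pi / 3) = (y - 6) * (Real.pi / 3) + 2 * Real.pi := by ring
  have hpi := Real.pi_pos
  rw [e, Real.cos_add_two_pi]
  exact Real.cos_pos_of_mem_Ioo ⟨by nlinarith, by nlinarith⟩

theorem cpos0 {y : ℝ} (h1 : -(3 / 2) < y) (h2 : y < 3 / 2) : 0 < Real.cos (y * (Real.pi / 3)) := by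
  have hpi := Real.pi_pos
  exact Real.cos_pos_of_mem_Ioo ⟨by nlinarith, by nlinarith⟩

namespace Wp

variable {J : Type*} {K : ℕ} {a : ℕ → ℝ} {X : J → ℂ} {W : J → ℕ → ℕ → ℕ → Set (Fin 6)}
variable (D : Wp U T K a X W)
include D

theorem half_in (h : Irr U T) {j : J} {t sd : ℕ} (hP : W j t sd 0 ⊆ {c}) {θ : ℝ} (hθ : θ ∈ DS (U c) (X j))
    (hc : ∀ᶠ τ in sdf sd, Real.cos ((θ - (a t + τ)) * (Real.pi / 3)) < 0) : False := by
  obtain ⟨τ, h1, h2⟩ := (D.fam sd).exists_at hc
  exact hit_in h hθ h1 (by rw [(h2 (j, t)).eqP]; exact hP)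

theorem half_out (h : Irr U T) {j : J} {t sd : ℕ} (hP : W j t sd 1 ⊆ {c}) {θ : ℝ} (hθ : θ ∈ DS (U c) (X j))
    (hc : ∀ᶠ τ in sdf sd, 0 < Real.cos ((θ - (a t + τ)) * (Real.pi / 3))) : False := by
  obtain ⟨τ, h1, h2⟩ := (D.fam sd).exists_at hc
  exact hit_out h hθ h1 (by rw [(h2 (j, t)).eqQ]; exact hP)

omit D in
theorem sdf_nhds (sd : ℕ) {r : ℝ} (hr : 0 < r) : ∀ᶠ τ in sdf sd, |τ| < r := by
  have h1 : ∀ᶠ τ in 𝓝 (0 : ℝ), |τ| < r := by
    filter_upwards [Ioo_mem_nhds (neg_lt_zero.2 hr) hr] with τ hτ using abs_lt.2 hτ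
  unfold sdf
  split_ifs
  · exact h1.filter_mono nhdsWithin_le_nhds
  · exact h1.filter_mono nhdsWithin_le_nhds

omit D in
theorem sdf_one : sdf 1 = 𝓝[>] 0 := by simp [sdf]

omit D in
theorem sdf_zero : sdf 0 = 𝓝[<] 0 := by simp [sdf]

omit D in
theorem ev_cneg (sd : ℕ) {y : ℝ} {t : ℝ} (h1 : 3 / 2 < y - t) (h2 : y - t < 9 / 2) :
    ∀ᶠ τ in sdf sd, Real.cos ((y - (t + τ)) * (Real.pi / 3)) < 0 := by
  filter_upwards [sdf_nhds sd (r := min (y - t - 3 / 2) (9 / 2 - (y - t))) (lt_min (by linarith) (by linarith))]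
    with τ hτ
  obtain ⟨h3, h4⟩ := abs_lt.1 hτ
  have h5 := min_le_left (y - t - 3 / 2) (9 / 2 - (y - t))
  have h6 := min_le_right (y - t - 3 / 2) (9 / 2 - (y - t))
  exact cos_neg_of (by linarith) (by linarith)

omit D in
theorem ev_cpos (sd : ℕ) {y : ℝ} {t : ℝ} (h1 : 9 / 2 < y - t) (h2 : y - t < 15 / 2) :
    ∀ᶠ τ in sdf sd, 0 < Real.cos ((y - (t + τ)) * (Real.pi / 3)) := by
  filter_upwards [sdf_nhds sd (r := min (y - t - 9 / 2) (15 / 2 - (y - t))) (lt_min (by linarith) (by linarith))]
    with τ hτ
  obtain ⟨h3, h4⟩ := abs_lt.1 hτ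
  have h5 := min_le_left (y - t - 9 / 2) (15 / 2 - (y - t))
  have h6 := min_le_right (y - t - 9 / 2) (15 / 2 - (y - t))
  exact cpos6 (by linarith) (by linarith)

/-- **a one coloured letter against the cells of its colour** -/
theorem lhalf (h : Irr U T) (A : Tick K a) {j : J} {t sd io k m : ℕ} (ht : t < 6 * K) (hm : m < 6 * K)
    (hsd : sd < 2) (hio : io < 2) (hv : vcell K sd io k m t = true) (hW : W j t sd io ⊆ {c}) :
    ¬ Cl (U c) (X j) a k m := by
  intro hcl
  have hcl := (cl_df A hm ht).2 hcl
  have hlt := df_lt hm ht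
  unfold vcell at hv
  have e3 : Nat.mul 3 K = 3 * K := rfl
  rw [e3] at hv
  generalize df K m t = d at hcl hlt hv
  have r0 : ∀ n, ra a n = a n + 3 / 2 := fun n => rfl
  have h3K := CK.ra_half A t
  have h6K := CK.ra_full A t
  have hr0 := r0 t
  by_cases h0 : k = 0
  · subst h0
    obtain ⟨θ, hθ, hd⟩ := cl_zero.1 hcl
    interval_cases io
    · have h1 : d + 1 ≤ 3 * K := by simpa using hv
      have h3 := CK.ra_le A (show t ≤ t + d by omega)
      have h4 := CK.ra_le A (show t + d + 1 ≤ t + 3 * K by omega)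
      exact D.half_in h hW hd (ev_cneg sd (by linarith [hθ.1]) (by linarith [hθ.2]))
    · have h1 : 3 * K ≤ d := by simpa using hv
      have h3 := CK.ra_le A (show t + 3 * K ≤ t + d by omega)
      have h4 := CK.ra_le A (show t + d + 1 ≤ t + 6 * K by omega)
      exact D.half_out h hW hd (ev_cpos sd (by linarith [hθ.1]) (by linarith [hθ.2]))
  · rw [nbeq_zero h0] at hv
    have hd := cl_ray h0 hcl
    interval_cases io
    · interval_cases sd
      · have h1 : (1 ≤ d ∧ d + 1 ≤ 3 * K) ∨ d = 0 := by
          rw [show Nat.beq 0 1 = false from rfl] at hv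
          simpa [nbeq] using hv
        rcases h1 with h1 | rfl
        · have h3 := CK.ra_lt A (show t < t + d by omega)
          have h4 := CK.ra_lt A (show t + d < t + 3 * K by omega)
          exact D.half_in h hW hd (ev_cneg 0 (by linarith) (by linarith))
        · refine D.half_in h hW hd ?_
          rw [sdf_zero]
          filter_upwards [ev_small'] with τ hτ
          rw [add_zero]
          exact cos_neg_of (by linarith [hτ.2]) (by linarith [hτ.1])
      · have h1 : (1 ≤ d ∧ d + 1 ≤ 3 * K) ∨ d = 3 * K := by simpa [nbeq] using hv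
        rcases h1 with h1 | rfl
        · have h3 := CK.ra_lt A (show t < t + d by omega)
          have h4 := CK.ra_lt A (show t + d < t + 3 * K by omega)
          exact D.half_in h hW hd (ev_cneg 1 (by linarith) (by linarith))
        · refine D.half_in h hW hd ?_
          rw [sdf_one]
          filter_upwards [ev_small] with τ hτ
          exact cos_neg_of (by linarith [hτ.2]) (by linarith [hτ.1])
    · interval_cases sd
      · have h1 : 3 * K + 1 ≤ d ∨ d = 3 * K := by
          rw [show Nat.beq 0 1 = false from rfl] at hv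
          simpa [nbeq] using hv
        rcases h1 with h1 | rfl
        · have h3 := CK.ra_lt A (show t + 3 * K < t + d by omega)
          have h4 := CK.ra_lt A (show t + d < t + 6 * K by omega)
          exact D.half_out h hW hd (ev_cpos 0 (by linarith) (by linarith))
        · refine D.half_out h hW hd ?_
          rw [sdf_zero]
          filter_upwards [ev_small'] with τ hτ
          exact cpos6 (by linarith [hτ.2]) (by linarith [hτ.1])
      · have h1 : 3 * K + 1 ≤ d ∨ d = 0 := by simpa [nbeq] using hv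
        rcases h1 with h1 | rfl
        · have h3 := CK.ra_lt A (show t + 3 * K < t + d by omega)
          have h4 := CK.ra_lt A (show t + d < t + 6 * K by omega)
          exact D.half_out h hW hd (ev_cpos 1 (by linarith) (by linarith))
        · refine D.half_out h hW hd ?_
          rw [sdf_one]
          filter_upwards [ev_small] with τ hτ
          rw [add_zero]
          exact cpos0 (by linarith [hτ.2]) (by linarith [hτ.1])

/-- before the tick: the sector which ends at the ray `t` (index `m`, `m + 1 = t + 6 K`) -/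
theorem sector_L (h : Irr U T) (A : Tick K a) {j : J} {t m : ℕ} (hm : m + 1 = t + 6 * K)
    (hs : So T (X j) a 0 m c) : c ∉ W j t 0 0 ∧ c ∉ W j t 0 1 := by
  have hK := A.pos
  have e : ra a (m + 1) = a t + 15 / 2 := by rw [hm, CK.ra_full A]; unfold ra; ring
  refine ⟨?_, ?_⟩
  · refine D.famL.co_ev h (j := (j, t)) ?_
    have h1 : ∀ᶠ τ : ℝ in 𝓝[<] 0, ra a m - ra a (m + 1) < τ :=
      (eventually_gt_nhds (sub_neg.2 (CK.ra_lt A (Nat.lt_succ_self m)))).filter_mono nhdsWithin_le_nhds
    filter_upwards [ev_small', h1] with τ hτ h2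
    refine solid_sector h (θ := ra a (m + 1) + τ / 2) ⟨by linarith [hτ.2], by linarith [hτ.2]⟩ hs
      (po_out (u := a t + τ) ?_)
    rw [e, show (a t + 15 / 2 + τ / 2 - (a t + τ)) * (Real.pi / 3) = (3 / 2 - τ / 2) * (Real.pi / 3) +
      2 * Real.pi by ring, Real.cos_add_two_pi]
    exact cos_neg_of (by linarith [hτ.2]) (by linarith [hτ.1])
  · exact D.ci_cell h A (d := 6 * K - 1) (by norm_num) (by omega) (Or.inl ⟨rfl, by omega⟩)
      (by rwa [show t + (6 * K - 1) = m by omega])

/-- before the tick: the sector which ends at the ray `t + 3 K` (index `m`, `m + 1 = t + 3 K`) -/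
theorem sector_L' (h : Irr U T) (A : Tick K a) {j : J} {t m : ℕ} (hm : m + 1 = t + 3 * K)
    (hs : So T (X j) a 0 m c) : c ∉ W j t 0 0 ∧ c ∉ W j t 0 1 := by
  have hK := A.pos
  have e : ra a (m + 1) = a t + 9 / 2 := by rw [hm, CK.ra_half A]; unfold ra; ring
  refine ⟨?_, ?_⟩
  · refine D.co_cell h A (d := 3 * K - 1) (k := 0) (by norm_num) (by omega) (fun hc => ?_)
      (by rwa [show t + (3 * K - 1) = m by omega])
    rcases hc with ⟨-, h1⟩ | ⟨h1, -⟩
    · omega
    · exact h1 rfl
  · refine D.famL.ci_ev h (j := (j, t)) ?_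
    have h1 : ∀ᶠ τ : ℝ in 𝓝[<] 0, ra a m - ra a (m + 1) < τ :=
      (eventually_gt_nhds (sub_neg.2 (CK.ra_lt A (Nat.lt_succ_self m)))).filter_mono nhdsWithin_le_nhds
    filter_upwards [ev_small', h1] with τ hτ h2
    refine solid_sector h (θ := ra a (m + 1) + τ / 2) ⟨by linarith [hτ.2], by linarith [hτ.2]⟩ hs
      (po_in (u := a t + τ) ?_)
    rw [e]
    exact cpos6 (by linarith [hτ.2]) (by linarith [hτ.1])

/-- **a cell of one colour against the letters** -/
theorem lsol (h : Irr U T) (A : Tick K a) {j : J} {t sd io k m : ℕ} (ht : t < 6 * K) (hm : m < 6 * K)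
    (hsd : sd < 2) (hio : io < 2) (hk : k < 4) (hv : scell K sd io k m t = true) (hs : So T (X j) a k m c) :
    c ∉ W j t sd io := by
  have hK := A.pos
  have hs' : So T (X j) a k (t + df K m t) c := fun r hr hc => hs r hr ((cl_df A hm ht).1 hc)
  have hlt := df_lt hm ht
  unfold scell at hv
  have e3 : Nat.mul 3 K = 3 * K := rfl
  have e6 : Nat.mul 6 K = 6 * K := rfl
  rw [e3, e6] at hv
  have hC : hcell K k m t = true ↔ InC K k (df K m t) := hcell_iff
  generalize df K m t = d at hs' hlt hv hC
  -- the two halves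
  have hin : hcell K k m t = true → io = 1 → c ∉ W j t sd io := by
    rintro h1 rfl
    exact D.ci_cell h A (by omega) hlt (hC.1 h1) hs'
  have hout : hcell K k m t = false → io = 0 → c ∉ W j t sd io := by
    rintro h1 rfl
    exact D.co_cell h A (by omega) hlt (fun h2 => by rw [hC.2 h2] at h1; exact Bool.noConfusion h1) hs'
  by_cases h0 : k = 0
  · subst h0
    interval_cases io
    · interval_cases sd
      · have h1 : hcell K 0 m t = false ∨ d + 1 = 6 * K ∨ d + 1 = 3 * K := by simpa [nbeq] using hv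
        rcases h1 with h1 | h1 | h1
        · exact hout h1 rfl
        · exact (D.sector_L h A (m := t + d) (by omega) hs').1
        · exact (D.sector_L' h A (m := t + d) (by omega) hs').1
      · have h1 : hcell K 0 m t = false ∨ d = 0 ∨ d = 3 * K := by simpa [nbeq] using hv
        rcases h1 with h1 | rfl | rfl
        · exact hout h1 rfl
        · exact (D.sector_R h A hs').1
        · exact (D.sector_R' h A hs').1
    · interval_cases sd
      · have h1 : hcell K 0 m t = true ∨ d + 1 = 6 * K ∨ d + 1 = 3 * K := by simpa [nbeq] using hv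
        rcases h1 with h1 | h1 | h1
        · exact hin h1 rfl
        · exact (D.sector_L h A (m := t + d) (by omega) hs').2
        · exact (D.sector_L' h A (m := t + d) (by omega) hs').2
      · have h1 : hcell K 0 m t = true ∨ d = 0 ∨ d = 3 * K := by simpa [nbeq] using hv
        rcases h1 with h1 | rfl | rfl
        · exact hin h1 rfl
        · exact (D.sector_R h A hs').2
        · exact (D.sector_R' h A hs').2
  · rw [nbeq_zero h0] at hv
    interval_cases io
    · interval_cases sd
      · have h1 : hcell K k m t = false ∨ d = 0 := by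
          rw [show Nat.beq 0 1 = false from rfl] at hv
          simpa [nbeq] using hv
        rcases h1 with h1 | rfl
        · exact hout h1 rfl
        · exact D.ray_L h h0 hs'
      · have h1 : hcell K k m t = false ∨ d = 3 * K := by simpa [nbeq] using hv
        rcases h1 with h1 | rfl
        · exact hout h1 rfl
        · exact D.ray_R' h A h0 hs'
    · interval_cases sd
      · have h1 : hcell K k m t = true ∨ d = 3 * K := by
          rw [show Nat.beq 0 1 = false from rfl] at hv
          simpa [nbeq] using hv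
        rcases h1 with h1 | rfl
        · exact hin h1 rfl
        · exact D.ray_L' h A h0 hs'
      · have h1 : hcell K k m t = true ∨ d = 0 := by simpa [nbeq] using hv
        rcases h1 with h1 | rfl
        · exact hin h1 rfl
        · exact D.ray_R h h0 hs'

end Wp

end Vale.Agent.P032.H556
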