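import Vale.Agent.P032.H993.MdJ

/-!
# P032: the wild model, joint colourings on the letter sequence, with the second crossing

`MdJ2 M` : `MdJ M` (H993) and `jp`: the colour of a word point `x` at the displacement of `(t, sd, io)` is not in the
letter of `x` at `t + 3 K`, side `esd sd io` (`sd` inside, `1 - sd` outside).
-/

namespace Vale.Agent.P032.H556

open Vale.Agent.P032.H820.K (ad)
open Vale.Agent.P032.H240.W (MdW)
open Vale.Agent.P032.H993 (MdJ)

/-- the side of the second letter: `sd` inside (`io = 0`), `1 - sd` outside -/
def esd (sd io : ℕ) : ℕ := bif Nat.beq io 0 then sd else Nat.sub 1 sd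

/-- joint colourings on the letter sequence, both crossings -/
structure MdJ2 {K NP NW : ℕ} {nb : ℕ → ℕ → ℕ} (M : MdW K NP NW nb) extends MdJ M where
  /-- the colour of a word point is not in its letter at `t + 3 K`, side `esd sd io` -/
  jp : ∀ {t sd io x}, t < 6 * K → sd < 2 → io < 2 → x < NW →
    ¬ M.LU x (ad K t (3 * K)) (esd sd io) (JE t sd io x)

end Vale.Agent.P032.H556
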