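import Vale.Agent.P032.H993.MkJ
import Vale.Agent.P032.H556.MdJ2

/-!
# P032: joint colourings on the letter sequence, both crossings

Frame `Irr U T` only.  The displacement is `dir (b + τ) - dir (b + τ')` with two good shifts, `τ'` much smaller than
`τ`: the circle about the displaced point `x` passes through `pt x (b + τ)` and `pt x (b + 3 + τ')`.  It is inside the circle
about `-dir b` if `τ`, `τ'` have the same sign and outside otherwise.

* `Wp.seq2` : existence,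
* `exists_JS2` : `JS` and: the colour of a word point is not in its letter at `t + 3 K`, side `esd sd io`,
* `mkMdJ2` : the instance.
-/

open Set Filter Topology Metric

noncomputable section

namespace Vale.Agent.P032.H556

open Vale.Agent.P032.Six Vale.Agent.P032.Words Vale.Agent.P032.S5.H767 Vale.Agent.P032.H892
  Vale.Agent.P032.H913 Vale.Agent.P032.H357 Vale.Agent.P032.H61

variable {U : Fin 6 → Set ℂ} {T : ℂ → Set (Fin 6)}

/-- the displacement with two shifts -/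
def dm (b τ τ' : ℝ) : ℂ := dir (b + τ) - dir (b + τ')

theorem dm_tendsto (b τ : ℝ) {l : Filter ℝ} (hl : Side l) : Tendsto (fun τ' => dm b τ τ') l (𝓝 (dl b τ)) := by
  have h1 : Continuous fun τ' : ℝ => dm b τ τ' := by
    unfold dm
    have : Continuous fun v : ℝ => dir v := by
      have h2 := continuous_pt 0
      have e : (fun v : ℝ => dir v) = fun v => pt 0 v := by
        funext v; unfold dir pt; rw [zero_add]
      rw [e]; exact h2
    exact continuous_const.sub (this.comp (by fun_prop))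
  have h2 := h1.tendsto 0
  have e : dm b τ 0 = dl b τ := by unfold dm dl; rw [add_zero]
  rw [e] at h2
  exact h2.mono_left hl.le

theorem sin_shift_pos {τ : ℝ} (h0 : 0 < τ) (h1 : τ < 1) : 0 < Real.sin (τ * (Real.pi / 3)) := by
  have hpi := Real.pi_pos
  exact Real.sin_pos_of_pos_of_lt_pi (by positivity) (by nlinarith)

theorem sin_shift_neg {τ : ℝ} (h0 : -1 < τ) (h1 : τ < 0) : Real.sin (τ * (Real.pi / 3)) < 0 := by
  have h2 := sin_shift_pos (τ := -τ) (by linarith) (by linarith)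
  rw [neg_mul, Real.sin_neg] at h2
  linarith

theorem dm_dist (b τ ε : ℝ) : dist (pt 0 (b + ε)) (pt 0 b + dir (b + τ)) = dist (dm b τ ε) (-dir b) := by
  rw [dist_eq_norm, dist_eq_norm, ← norm_neg]
  congr 1
  unfold pt dm dir
  ring

theorem neg_tendsto : Tendsto (fun ε : ℝ => -ε) (𝓝[<] 0) (𝓝[>] 0) := by
  rw [tendsto_nhdsWithin_iff]
  constructor
  · have h1 : Continuous fun ε : ℝ => -ε := by fun_prop
    have h2 := h1.tendsto 0
    rw [neg_zero] at h2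
    exact h2.mono_left nhdsWithin_le_nhds
  · filter_upwards [self_mem_nhdsWithin] with ε hε
    exact neg_pos.2 (mem_Iio.1 hε)

theorem ev_in_R {b τ : ℝ} (h : 0 < Real.sin (τ * (Real.pi / 3))) :
    ∀ᶠ ε : ℝ in 𝓝[>] 0, dm b τ ε ∈ Oi b := by
  have h1 := (ev_end 0 b (b + τ) (τ := 1) (Or.inl rfl)).1 (by rw [one_mul, add_sub_cancel_left]; exact h)
  filter_upwards [h1] with ε h2
  rw [one_mul, dm_dist] at h2
  exact h2

theorem ev_out_R {b τ : ℝ} (h : Real.sin (τ * (Real.pi / 3)) < 0) :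
    ∀ᶠ ε : ℝ in 𝓝[>] 0, dm b τ ε ∈ Oo b := by
  have h1 := (ev_end 0 b (b + τ) (τ := 1) (Or.inl rfl)).2 (Or.inl (by rw [one_mul, add_sub_cancel_left]; exact h))
  filter_upwards [h1] with ε h2
  rw [one_mul, dm_dist] at h2
  exact h2

theorem ev_in_L {b τ : ℝ} (h : Real.sin (τ * (Real.pi / 3)) < 0) :
    ∀ᶠ ε : ℝ in 𝓝[<] 0, dm b τ ε ∈ Oi b := by
  have h1 := (ev_end 0 b (b + τ) (τ := -1) (Or.inr rfl)).1 (by rw [add_sub_cancel_left]; linarith)
  filter_upwards [neg_tendsto.eventually h1] with ε h2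
  rw [neg_one_mul, neg_neg, dm_dist] at h2
  exact h2

theorem ev_out_L {b τ : ℝ} (h : 0 < Real.sin (τ * (Real.pi / 3))) :
    ∀ᶠ ε : ℝ in 𝓝[<] 0, dm b τ ε ∈ Oo b := by
  have h1 := (ev_end 0 b (b + τ) (τ := -1) (Or.inr rfl)).2 (Or.inl (by rw [add_sub_cancel_left]; linarith))
  filter_upwards [neg_tendsto.eventually h1] with ε h2
  rw [neg_one_mul, neg_neg, dm_dist] at h2
  exact h2

/-- inside / outside -/
def Ob (b : ℝ) (io : ℕ) : Set ℂ := if io = 0 then Oi b else Oo b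

theorem isOpen_Ob (b : ℝ) (io : ℕ) : IsOpen (Ob b io) := by
  unfold Ob
  split_ifs
  · exact isOpen_Oi _
  · exact isOpen_Oo _

theorem ev_Ob (b : ℝ) {sd io : ℕ} (hsd : sd < 2) (hio : io < 2) :
    ∀ᶠ τ in sdf sd, ∀ᶠ τ' in sdf (esd sd io), dm b τ τ' ∈ Ob b io := by
  have e0 : sdf 0 = 𝓝[<] 0 := sdf_ne (by norm_num)
  have hO0 : Ob b 0 = Oi b := if_pos rfl
  have hO1 : Ob b 1 = Oo b := if_neg one_ne_zero
  have hL : ∀ᶠ τ : ℝ in sdf 0, Real.sin (τ * (Real.pi / 3)) < 0 := by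
    rw [e0]
    filter_upwards [Wp.ev_small'] with τ hτ
    exact sin_shift_neg hτ.1 hτ.2
  have hR : ∀ᶠ τ : ℝ in sdf 1, 0 < Real.sin (τ * (Real.pi / 3)) := by
    rw [sdf_one]
    filter_upwards [Wp.ev_small] with τ hτ
    exact sin_shift_pos hτ.1 hτ.2
  interval_cases sd <;> interval_cases io
  · filter_upwards [hL] with τ hs
    rw [hO0, show esd 0 0 = 0 from rfl, e0]
    exact ev_in_L hs
  · filter_upwards [hL] with τ hs
    rw [hO1, show esd 0 1 = 1 from rfl, sdf_one]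
    exact ev_out_R hs
  · filter_upwards [hR] with τ hs
    rw [hO0, show esd 1 0 = 1 from rfl, sdf_one]
    exact ev_in_R hs
  · filter_upwards [hR] with τ hs
    rw [hO1, show esd 1 1 = 0 from rfl, e0]
    exact ev_out_L hs

/-- **Joint colourings with two shifts.** -/
theorem Wp.seq2 (h : Irr U T) {I J : Type*} [Finite I] {K : ℕ} {a : ℕ → ℝ} {X : J → ℂ}
    {W : J → ℕ → ℕ → ℕ → Set (Fin 6)} (D : Wp U T K a X W) (Z : I → ℂ) (b : ℝ) {sd io : ℕ} (hsd : sd < 2)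
    (hio : io < 2) :
    ∃ s : I → Fin 6, (∃ᶠ τ in sdf sd, (∀ i : J × ℕ, IP U T (X i.1) (a i.2 + τ) (W i.1 i.2 sd 0) (W i.1 i.2 sd 1)) ∧
      ∃ᶠ τ' in sdf (esd sd io), (∀ i : J × ℕ, IP U T (X i.1) (a i.2 + τ') (W i.1 i.2 (esd sd io) 0)
        (W i.1 i.2 (esd sd io) 1)) ∧ ∃ᶠ v in 𝓝 (dm b τ τ'), v ∈ Ob b io ∧ ∀ i, T (Z i + v) = {s i}) ∧
      ∀ i i', dist (Z i) (Z i') = 1 → s i ≠ s i' := by
  have h1 : ∀ τ τ', dm b τ τ' ∈ Ob b io → ∃ s : I → Fin 6, ∃ᶠ v in 𝓝 (dm b τ τ'), v ∈ Ob b io ∧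
      ∀ i, T (Z i + v) = {s i} := by
    intro τ τ' hO
    refine H61.freq_exists (P := fun (s : I → Fin 6) v => v ∈ Ob b io ∧ ∀ i, T (Z i + v) = {s i}) ?_
    rw [frequently_iff]
    intro N hN
    obtain ⟨N', hN', hNo, hN0⟩ := _root_.mem_nhds_iff.1 hN
    obtain ⟨δ, h4, s, h5⟩ := exists_all h Z ((isOpen_Ob b io).inter hNo) ⟨_, hO, hN0⟩
    exact ⟨δ, hN' h4.2, s, h4.1, h5⟩
  have h2 : ∃ᶠ τ in sdf sd, ∃ s : I → Fin 6,
      (∀ i : J × ℕ, IP U T (X i.1) (a i.2 + τ) (W i.1 i.2 sd 0) (W i.1 i.2 sd 1)) ∧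
      ∃ᶠ τ' in sdf (esd sd io), (∀ i : J × ℕ, IP U T (X i.1) (a i.2 + τ') (W i.1 i.2 (esd sd io) 0)
        (W i.1 i.2 (esd sd io) 1)) ∧ ∃ᶠ v in 𝓝 (dm b τ τ'), v ∈ Ob b io ∧ ∀ i, T (Z i + v) = {s i} := by
    refine ((D.fam sd).and_eventually (ev_Ob b hsd hio)).mono fun τ hτ => ?_
    obtain ⟨s, hs⟩ := H61.freq_exists (P := fun (s : I → Fin 6) τ' =>
        (∀ i : J × ℕ, IP U T (X i.1) (a i.2 + τ') (W i.1 i.2 (esd sd io) 0) (W i.1 i.2 (esd sd io) 1)) ∧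
        ∃ᶠ v in 𝓝 (dm b τ τ'), v ∈ Ob b io ∧ ∀ i, T (Z i + v) = {s i})
      (((D.fam (esd sd io)).and_eventually hτ.2).mono fun τ' hτ' => by
        obtain ⟨s, h3⟩ := h1 τ τ' hτ'.2
        exact ⟨s, hτ'.1, h3⟩)
    exact ⟨s, hτ.1, hs⟩
  obtain ⟨s, hs⟩ := H61.freq_exists h2
  refine ⟨s, hs, fun i i' hd e => ?_⟩
  obtain ⟨τ, -, h3⟩ := hs.exists
  obtain ⟨τ', -, h4⟩ := h3.exists
  obtain ⟨v, -, h5⟩ := h4.exists
  have h6 : dist (Z i + v) (Z i' + v) = 1 := by rw [dist_add_right]; exact hd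
  have h7 := sq_sub h (s i) (show Z i + v ∈ Sq T (s i) from h5 i)
  have h8 := sq_sub h (s i') (show Z i' + v ∈ Sq T (s i') from h5 i')
  rw [← e] at h8
  exact h.mx.free (s i) _ h7 _ (subset_closure h8) h6

/-- the limit `τ' → 0` -/
theorem seq2_lim {I : Type*} {Z : I → ℂ} {b τ : ℝ} {io : ℕ} {s : I → Fin 6} {l : Filter ℝ} (hl : Side l)
    {F : ℝ → Prop} (hs : ∃ᶠ τ' in l, F τ' ∧ ∃ᶠ v in 𝓝 (dm b τ τ'), v ∈ Ob b io ∧ ∀ i, T (Z i + v) = {s i}) :
    ∃ᶠ v in 𝓝 (dl b τ), v ∈ Ob b io ∧ ∀ i, T (Z i + v) = {s i} :=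
  freq_lim (dm_tendsto b τ hl) (hs.mono fun _ h => h.2)

theorem dl_ne {b τ : ℝ} (h0 : τ ≠ 0) (h1 : |τ| < 1) : dl b τ ≠ 0 ∧ dir (b + τ) + dir b ≠ 0 := by
  rw [abs_lt] at h1
  constructor
  · intro e
    have e1 : pt 0 (b + τ) = pt 0 b := by
      unfold dl at e
      show (0 : ℂ) + dir (b + τ) = 0 + dir b
      linear_combination e
    obtain ⟨n, hn⟩ := pt_inj e1
    have h5 : (-1 : ℝ) < n := by linarith [h1.1, h1.2]
    have h6 : (n : ℝ) < 1 := by linarith [h1.1, h1.2]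
    have h7 : -1 < n := by exact_mod_cast h5
    have h8 : n < 1 := by exact_mod_cast h6
    have h9 : n = 0 := by omega
    rw [h9] at hn
    simp only [Int.cast_zero, mul_zero, add_zero] at hn
    exact h0 (by linarith)
  · intro e
    have e1 : pt 0 (b + τ) = pt 0 (b + 3) := by
      have e2 : dir (b + 3) = -dir b := dir_three b
      show (0 : ℂ) + dir (b + τ) = 0 + dir (b + 3)
      rw [e2]
      linear_combination e
    obtain ⟨n, hn⟩ := pt_inj e1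
    have h5 : (-1 : ℝ) < n := by linarith [h1.1, h1.2]
    have h6 : (n : ℝ) < 1 := by linarith [h1.1, h1.2]
    have h7 : -1 < n := by exact_mod_cast h5
    have h8 : n < 1 := by exact_mod_cast h6
    have h9 : n = 0 := by omega
    rw [h9] at hn
    simp only [Int.cast_zero, mul_zero, add_zero] at hn
    linarith [h1.1, h1.2]

/-- **the second crossing**: `c` is the colour of `X0` at the displacement `dm b τ τ'` for `τ' → 0` -/
theorem seq2_off (h : Irr U T) {X0 : ℂ} {b τ : ℝ} {P Q : Set (Fin 6)} {c : Fin 6} (h0 : τ ≠ 0) (h1 : |τ| < 1)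
    {l : Filter ℝ} (hl : Side l)
    (hs : ∃ᶠ τ' in l, IP U T X0 (b + 3 + τ') P Q ∧ ∃ᶠ v in 𝓝 (dm b τ τ'), T (X0 + v) = {c}) : c ∉ P ∪ Q := by
  intro hc
  obtain ⟨k1, k2⟩ := dl_ne (b := b) h0 h1
  have e1 : ∀ᶠ τ' in l, dm b τ τ' ≠ 0 := (dm_tendsto b τ hl).eventually (isOpen_ne.mem_nhds k1)
  have e2 : ∀ᶠ τ' in l, dir (b + τ) + dir (b + τ') ≠ 0 := by
    have h2 : ∀ᶠ τ' in l, dm b τ τ' ≠ 2 * dir (b + τ) :=
      (dm_tendsto b τ hl).eventually (isOpen_ne.mem_nhds fun e => k2 (by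
        unfold dl at e
        linear_combination -e))
    filter_upwards [h2] with τ' h3 e
    exact h3 (by unfold dm; linear_combination -e)
  obtain ⟨τ', ⟨I, hv⟩, h2, h3⟩ := (hs.and_eventually (e1.and e2)).exists
  have hp : c ∈ T (X0 + dm b τ τ') := by
    refine mem_of_freq h (P := fun _ => True) ?_
    exact freq_add (Z := X0) (A := fun y => T y = {c} ∧ True) (hv.mono fun v hv => ⟨hv, trivial⟩)
  have e3 : pt X0 (b + 3 + τ') = X0 - dir (b + τ') := by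
    have e4 : dir (b + 3 + τ') = -dir (b + τ') := by
      rw [show b + 3 + τ' = b + τ' + 3 by ring]
      exact dir_three _
    show X0 + dir (b + 3 + τ') = _
    rw [e4]; ring
  refine I.off_line h hc (w := X0 + dm b τ τ') ?_ ?_ ?_ (h.sub _ hp)
  · rw [e3, dist_eq_norm, show X0 - dir (b + τ') - (X0 + dm b τ τ') = -dir (b + τ) by unfold dm; ring, norm_neg,
      norm_dir']
  · intro e
    exact h2 (by linear_combination e)
  · intro e
    rw [e3] at e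
    refine h3 ?_
    unfold dm at e
    linear_combination e

end Vale.Agent.P032.H556

namespace Vale.Agent.P032.H993.MkW

open Vale.Agent.P032.Six Vale.Agent.P032.H892 Vale.Agent.P032.H913 Vale.Agent.P032.S5.H767 Vale.Agent.P032.H61
  Vale.Agent.P032.H357 Vale.Agent.P032.H357.MK Vale.Agent.P032.H556 Vale.Agent.P032.H515
open Vale.Agent.P032.H820.K (df ad hcell ecell fcell wcell gk gt)
open Vale.Agent.P032.H240.W (scell vcell MdW)

variable {U : Fin 6 → Set ℂ} {T : ℂ → Set (Fin 6)} {K : ℕ} {a : ℕ → ℝ}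

/-- **joint colourings on the letter sequence**, with the second crossing -/
theorem exists_JS2 (h : Irr U T) (A : Tick K a) (σ : Equiv.Perm (Fin 6)) {NP NW : ℕ} {nb : ℕ → ℕ → ℕ} {Y : ℕ → ℂ}
    (hNW : NW ≤ NP) (hY : Tab K a NP nb Y) {W : ℕ → Fin NW → ℕ → ℕ → ℕ → Set (Fin 6)}
    (D : ∀ r, Wp U T K a (fun j : Fin NW => Y j.val) (W r)) :
    ∃ JE : ℕ → ℕ → ℕ → ℕ → ℕ, JS U T K a σ NP NW nb Y W JE ∧
      ∀ {t sd io x}, sd < 2 → io < 2 → x < NW →
        ¬ LL σ K NW W x (ad K t (3 * K)) (esd sd io) (JE t sd io x) := by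
  have key : ∀ t sd io : ℕ, ∃ s : Fin NP → Fin 6,
      ((∃ᶠ τ in sdf sd, (∀ i : Fin NW × ℕ, IP U T (Y i.1.val) (a i.2 + τ) (W (t % K) i.1 i.2 sd 0)
        (W (t % K) i.1 i.2 sd 1)) ∧
        ∃ᶠ v in 𝓝 (dl (a t) τ), v ∈ Ob (a t) io ∧ ∀ i : Fin NP, T (Y i.val + v) = {s i}) ∧
      ∀ i i' : Fin NP, dist (Y i.val) (Y i'.val) = 1 → s i ≠ s i') ∧
      (sd < 2 → io < 2 → ∀ (x : ℕ) (hx : x < NW) (hx' : x < NP),
        s ⟨x, hx'⟩ ∉ W (t % K) ⟨x, hx⟩ (t + 3 * K) (esd sd io) 0 ∪ W (t % K) ⟨x, hx⟩ (t + 3 * K) (esd sd io) 1) := by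
    intro t sd io
    by_cases hh : sd < 2 ∧ io < 2
    · obtain ⟨hsd, hio⟩ := hh
      obtain ⟨s, h1, h2⟩ := (D (t % K)).seq2 h (fun i : Fin NP => Y i.val) (a t) hsd hio
      refine ⟨s, ⟨h1.mono fun τ hτ => ⟨hτ.1, seq2_lim (sdf_side _) hτ.2⟩, h2⟩, fun _ _ x hx hx' => ?_⟩
      have hsm : ∀ᶠ τ : ℝ in sdf sd, τ ≠ 0 ∧ |τ| < 1 := by
        unfold sdf
        split_ifs
        · filter_upwards [Wp.ev_small] with τ hτ
          exact ⟨hτ.1.ne', by rw [abs_of_pos hτ.1]; exact hτ.2⟩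
        · filter_upwards [Wp.ev_small'] with τ hτ
          exact ⟨hτ.2.ne, by rw [abs_of_neg hτ.2]; linarith [hτ.1]⟩
      obtain ⟨τ, ⟨-, h3⟩, h4, h5⟩ := (h1.and_eventually hsm).exists
      refine seq2_off h h4 h5 (sdf_side (esd sd io)) (h3.mono fun τ' h6 => ⟨?_, h6.2.mono fun v hv => hv.2 ⟨x, hx'⟩⟩)
      have h7 := h6.1 (⟨x, hx⟩, t + 3 * K)
      have e : a (t + 3 * K) = a t + 3 := by have := A.per_mul t 3; simpa using this
      simp only [e] at h7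
      exact h7
    · have hO : IsOpen (Ob (a t) io) := isOpen_Ob _ _
      have hf : ∀ τ, ∃ᶠ v in 𝓝 (dl (a t) τ), v ∈ Ob (a t) io := by
        intro τ
        unfold Ob
        split_ifs
        · exact freq_Oi _ _
        · exact freq_Oo _ _
      obtain ⟨s, h1⟩ := ((D (t % K)).fam sd).seq h (fun i : Fin NP => Y i.val) (a t) hO hf
      exact ⟨s, h1, fun h2 h3 => absurd ⟨h2, h3⟩ hh⟩
  choose s h12 h3 using key
  have h1 := fun t sd io => (h12 t sd io).1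
  have h2 := fun t sd io => (h12 t sd io).2
  refine ⟨fun t sd io x => if hx : x < NP then no σ (s t sd io ⟨x, hx⟩) else 0, ⟨fun t sd io x => ?_,
    fun {t sd io x r} hx hr hn => ?_, fun {t sd io x} hsd hio hx => ?_, fun {t sd io x} ht hio hx hn => ?_,
    fun {t sd io x} hx => ?_, fun {t sd io x r} ht hx hr hn hn' => ?_⟩, fun {t sd io x} hsd hio hx => ?_⟩
  · show (if hx : x < NP then no σ (s t sd io ⟨x, hx⟩) else 0) < 6
    split_ifs
    · exact no_lt σ _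
    · norm_num
  · simp only [dif_pos hx, dif_pos hn]
    intro e
    exact h2 t sd io ⟨x, hx⟩ ⟨nb x r, hn⟩ (hY.dist hx hr hn) (no_inj σ e)
  · simp only [dif_pos hx, co_no]
    refine seq_cell A hsd hio ((h1 t sd io).mono fun τ hτ => hτ.2.mono fun v hv => ⟨hv.1, hv.2 ⟨x, hx⟩⟩)
  · refine (lw_iff hx).2 ?_
    simp only [dif_pos hn, co_no]
    have hx' : x < NP := lt_of_lt_of_le hx hNW
    obtain ⟨τ, hI, hv⟩ := (h1 t sd io).exists
    have hI := hI (⟨x, hx⟩, t)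
    have e : Y (nb x t) = Y x + dir (a t) := hY x hx' t ht hn
    interval_cases io
    · exact seq_in hI e (hv.mono fun v hv => ⟨by simpa [Ob] using hv.1, hv.2 ⟨nb x t, hn⟩⟩)
    · exact seq_out hI e (hv.mono fun v hv => ⟨by simpa [Ob] using hv.1, hv.2 ⟨nb x t, hn⟩⟩)
  · have hx' : x < NP := lt_of_lt_of_le hx hNW
    rw [ll_iff hx]
    simp only [dif_pos hx', co_no]
    have hsm : ∀ᶠ τ : ℝ in sdf sd, τ ≠ 0 ∧ |τ| < 1 := by
      unfold sdf
      split_ifs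
      · filter_upwards [Wp.ev_small] with τ hτ
        exact ⟨hτ.1.ne', by rw [abs_of_pos hτ.1]; exact hτ.2⟩
      · filter_upwards [Wp.ev_small'] with τ hτ
        exact ⟨hτ.2.ne, by rw [abs_of_neg hτ.2]; linarith [hτ.1]⟩
    obtain ⟨τ, ⟨hI, hv⟩, h0, hlt⟩ := ((h1 t sd io).and_eventually hsm).exists
    have hI := hI (⟨x, hx⟩, t)
    exact seq_off h hI h0 hlt (hv.mono fun v hv => hv.2 ⟨x, hx'⟩)
  · have hx' : x < NP := lt_of_lt_of_le hx hNW
    rw [ll_iff hx]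
    simp only [dif_pos hn', co_no]
    obtain ⟨τ, ⟨hI, hv⟩, h3, h4⟩ := ((h1 t sd io).and_eventually
      ((H61.ev_ne (sdf_side sd) 0 (a t) (Y (nb (nb x t) r) - (Y x + dir (a t)))).and
        (H61.ev_ne (sdf_side sd) 0 (a t) (-(Y (nb (nb x t) r) - (Y x + dir (a t))))))).exists
    have hI := hI (⟨x, hx⟩, t)
    refine seq_off' h hI ?_ h3 h4 (hv.mono fun v hv => hv.2 ⟨nb (nb x t) r, hn'⟩)
    have e : Y (nb x t) = Y x + dir (a t) := hY x hx' t ht hn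
    show dist (Y (nb (nb x t) r)) (Y x + dir (a t)) = 1
    rw [← e, dist_comm]
    exact hY.dist hn hr hn'
  · have hx' : x < NP := lt_of_lt_of_le hx hNW
    have hK := A.pos
    rw [ll_iff hx]
    simp only [dif_pos hx', co_no]
    have e1 : ad K t (3 * K) % K = t % K := by
      show (t + 3 * K) % (6 * K) % K = t % K
      rw [Nat.mod_mul_left_mod, Nat.add_mul_mod_self_right]
    have e2 : ∀ r io', W r ⟨x, hx⟩ (ad K t (3 * K)) (esd sd io) io' = W r ⟨x, hx⟩ (t + 3 * K) (esd sd io) io' :=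
      fun r io' => (D r).per ⟨x, hx⟩ (t + 3 * K) (esd sd io) io'
    rw [e1, e2, e2]
    exact h3 t sd io hsd hio x hx hx'

/-- **the instance** -/
def mkMdJ2 {U : Fin 6 → Set ℂ} {T : ℂ → Set (Fin 6)} (h : Irr U T) {K : ℕ} {a : ℕ → ℝ}
    (A : Tick K a) (σ : Equiv.Perm (Fin 6)) {NP NW : ℕ} {nb : ℕ → ℕ → ℕ} (hK : 6 * K ≤ 256) (hNP : NP ≤ 4096)
    (hNW : NW ≤ NP) (Y : ℕ → ℂ) (hY : Tab K a NP nb Y) {W : ℕ → Fin NW → ℕ → ℕ → ℕ → Set (Fin 6)}
    {w : ℕ → Fin NW → ℕ → ℕ → ℕ → Fin 6} (D : ∀ r, Sw U T K a (fun j : Fin NW => Y j.val) (W r) (w r))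
    {J : ℕ → ℕ → ℕ → ℕ} (hJ : JC U T K a σ NP nb Y J) (B : ℕ → ℕ → ℕ → ℕ → Prop) {JE : ℕ → ℕ → ℕ → ℕ → ℕ}
    (hE : JS U T K a σ NP NW nb Y W JE) (hE2 : ∀ {t sd io x}, sd < 2 → io < 2 → x < NW →
      ¬ LL σ K NW W x (ad K t (3 * K)) (esd sd io) (JE t sd io x)) :
    MdJ2 (mkMdW h A σ hK hNP hNW Y hY D hJ B) where
  toMdJ := mkMdJ h A σ hK hNP hNW Y hY D hJ B hE
  jp := fun _ hsd hio hx => hE2 hsd hio hx

end Vale.Agent.P032.H993.MkW
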