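import Mathlib

/-!
# P032: a (2,2) centre of the clean network has a (1,1) partner

`tE z v`: `v` is a clean end of type `X` of the circle about `z`; `cE z q`: `q` is a clean end of
the complementary type.  Besides the rhombus and `three centres at a vertex` only the sign
property `SD` is used: for two clean ends of one type at a centre and a clean end of the other type,
the line through the latter lies in the (double) cone of the former.  Neither `L3` nor the
separation of four lines is used.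
-/

open Complex

set_option linter.dupNamespace false

namespace Vale.Agent.P032.H556.NetQ

/-- determinant of two vectors -/
def dt (x y : ℂ) : ℝ := x.re * y.im - x.im * y.re

/-- `t` or `-t` is a positive combination of `s` and `s'` -/
def InC (t s s' : ℂ) : Prop :=
  ∃ α β : ℝ, 0 < α ∧ 0 < β ∧ (t = (α : ℂ) * s + (β : ℂ) * s' ∨ -t = (α : ℂ) * s + (β : ℂ) * s')

/-- the part of the axioms of a network which is used -/
structure NetQ (tE cE : ℂ → ℂ → Prop) : Prop where
  rh : ∀ {z v q}, tE z v → cE z q → tE (v + q - z) v ∧ cE (v + q - z) q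
  three_t : ∀ {v z₁ z₂ z₃ z₄}, (tE z₁ v ∧ ∃ q, cE z₁ q) → (tE z₂ v ∧ ∃ q, cE z₂ q) →
    (tE z₃ v ∧ ∃ q, cE z₃ q) → (tE z₄ v ∧ ∃ q, cE z₄ q) →
    z₁ = z₂ ∨ z₁ = z₃ ∨ z₁ = z₄ ∨ z₂ = z₃ ∨ z₂ = z₄ ∨ z₃ = z₄
  three_c : ∀ {q z₁ z₂ z₃ z₄}, (cE z₁ q ∧ ∃ v, tE z₁ v) → (cE z₂ q ∧ ∃ v, tE z₂ v) →
    (cE z₃ q ∧ ∃ v, tE z₃ v) → (cE z₄ q ∧ ∃ v, tE z₄ v) →
    z₁ = z₂ ∨ z₁ = z₃ ∨ z₁ = z₄ ∨ z₂ = z₃ ∨ z₂ = z₄ ∨ z₃ = z₄
  dt_ne : ∀ {z v q}, tE z v → cE z q → dt (v - z) (q - z) ≠ 0
  sdc : ∀ {z v q q'}, tE z v → cE z q → cE z q' → q ≠ q' → InC (v - z) (q - z) (q' - z)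
  sdt : ∀ {z q v v'}, cE z q → tE z v → tE z v' → v ≠ v' → InC (q - z) (v - z) (v' - z)

theorem dt_comm (x y : ℂ) : dt y x = -dt x y := by unfold dt; ring

theorem dt_self (x : ℂ) : dt x x = 0 := by unfold dt; ring

theorem dt_comb (x a b : ℂ) (α β : ℝ) :
    dt x ((α : ℂ) * a + (β : ℂ) * b) = α * dt x a + β * dt x b := by
  unfold dt
  simp
  ring

theorem dt_neg (x y : ℂ) : dt x (-y) = -dt x y := by unfold dt; simp; ring

variable {tE cE : ℂ → ℂ → Prop}

theorem NetQ.swap (N : NetQ tE cE) : NetQ cE tE where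
  rh := fun {z v q} h1 h2 => by
    have := N.rh h2 h1
    rw [show q + v - z = v + q - z by ring] at this
    exact ⟨this.2, this.1⟩
  three_t := N.three_c
  three_c := N.three_t
  dt_ne := fun h1 h2 => by
    rw [dt_comm]
    exact neg_ne_zero.2 (N.dt_ne h2 h1)
  sdc := N.sdt
  sdt := N.sdc

theorem NetQ.ne_z (N : NetQ tE cE) {z v q : ℂ} (hv : tE z v) (hq : cE z q) : v + q - z ≠ z := by
  intro h
  apply N.dt_ne hv hq
  have : q - z = -(v - z) := by linear_combination h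
  rw [this, dt_neg, dt_self, neg_zero]

/-- the possible clean ends of the second type at a partner of a centre with two of them -/
theorem NetQ.third (N : NetQ tE cE) {M v q₁ q₂ q' : ℂ} (hv : tE M v) (h1 : cE M q₁)
    (h2 : cE M q₂) (hne : q₁ ≠ q₂) (hq : cE (v + q₁ - M) q') :
    q' = q₁ ∨ q' = v + q₁ + q₂ - 2 * M := by
  have r1 := N.rh hv h1
  have r2 := N.rh hv h2
  have r := N.rh r1.1 hq
  rcases N.three_t ⟨hv, q₁, h1⟩ ⟨r1.1, q₁, r1.2⟩ ⟨r2.1, q₂, r2.2⟩ ⟨r.1, q', r.2⟩ with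
    h | h | h | h | h | h
  · exact absurd h.symm (N.ne_z hv h1)
  · exact absurd h.symm (N.ne_z hv h2)
  · left; linear_combination -h
  · exact absurd (by linear_combination h) hne
  · exact absurd h.symm (N.ne_z r1.1 hq)
  · right; linear_combination -h

/-- if `v` is in the negative cone of the two ends of the second type, then the partner has only
one end of the second type -/
theorem NetQ.only (N : NetQ tE cE) {M v q₁ q₂ : ℂ} (hv : tE M v) (h1 : cE M q₁)
    (h2 : cE M q₂) (hne : q₁ ≠ q₂) {γ δ : ℝ} (hδ : 0 < δ)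
    (h : -(v - M) = (γ : ℂ) * (q₁ - M) + (δ : ℂ) * (q₂ - M)) :
    ∀ q', cE (v + q₁ - M) q' → q' = q₁ := by
  intro q' hq'
  by_contra hq
  rcases N.third hv h1 h2 hne hq' with h' | h'
  · exact hq h'
  have r1 := N.rh hv h1
  have hd : dt (q₁ - M) (q₂ - M) ≠ 0 := by
    intro h0
    apply N.dt_ne hv h1
    have e := congrArg (fun x => dt (q₁ - M) x) h
    simp only [dt_neg, dt_comb, dt_self] at e
    rw [dt_comm]
    rw [h0] at e
    linarith
  obtain ⟨α, β, hα, hβ, hc⟩ := N.sdc r1.1 r1.2 hq' (fun e => hq e.symm)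
  have a1 : v - (v + q₁ - M) = -(q₁ - M) := by ring
  have a2 : q₁ - (v + q₁ - M) = -(v - M) := by ring
  have a3 : q' - (v + q₁ - M) = q₂ - M := by rw [h']; ring
  rw [a1, a2, a3, h] at hc
  have key : (α * δ + β) * dt (q₁ - M) (q₂ - M) = 0 := by
    rcases hc with hc | hc
    · have e := congrArg (fun x => dt (q₁ - M) x) hc
      simp only [dt_neg, dt_comb, dt_self] at e
      linarith
    · have e := congrArg (fun x => dt (q₁ - M) x) hc
      simp only [dt_neg, dt_comb, dt_self] at e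
      linarith
  rcases mul_eq_zero.1 key with h0 | h0
  · have : 0 < α * δ + β := by positivity
    linarith
  · exact hd h0

/-- one of the two ends of the first type is in the negative cone of the two ends of the second
type -/
theorem NetQ.exists_neg (N : NetQ tE cE) {M v₁ v₂ q₁ q₂ : ℂ} (hv1 : tE M v₁) (hv2 : tE M v₂)
    (hv : v₁ ≠ v₂) (h1 : cE M q₁) (h2 : cE M q₂) (hq : q₁ ≠ q₂) :
    ∃ v, tE M v ∧ ∃ γ δ : ℝ, 0 < γ ∧ 0 < δ ∧
      -(v - M) = (γ : ℂ) * (q₁ - M) + (δ : ℂ) * (q₂ - M) := by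
  by_contra hcon
  push Not at hcon
  obtain ⟨α, β, hα, hβ, ha⟩ := N.sdc hv1 h1 h2 hq
  obtain ⟨γ, δ, hγ, hδ, hb⟩ := N.sdc hv2 h1 h2 hq
  have ha' : v₁ - M = (α : ℂ) * (q₁ - M) + (β : ℂ) * (q₂ - M) := by
    rcases ha with ha | ha
    · exact ha
    · exact absurd ha (hcon v₁ hv1 α β hα hβ)
  have hb' : v₂ - M = (γ : ℂ) * (q₁ - M) + (δ : ℂ) * (q₂ - M) := by
    rcases hb with hb | hb
    · exact hb
    · exact absurd hb (hcon v₂ hv2 γ δ hγ hδ)
  obtain ⟨κ, μ, hκ, hμ, hc⟩ := N.sdt h1 hv1 hv2 hv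
  have hd : dt (q₁ - M) (q₂ - M) ≠ 0 := by
    intro h0
    apply N.dt_ne hv1 h1
    rw [dt_comm, ha', dt_comb, dt_self, h0]
    ring
  have key : (κ * β + μ * δ) * dt (q₁ - M) (q₂ - M) = 0 := by
    rw [ha', hb'] at hc
    rcases hc with hc | hc
    · have e := congrArg (fun x => dt (q₁ - M) x) hc
      simp only [dt_comb, dt_self] at e
      linarith
    · have e := congrArg (fun x => dt (q₁ - M) x) hc
      simp only [dt_neg, dt_comb, dt_self] at e
      linarith
  rcases mul_eq_zero.1 key with h0 | h0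
  · have : 0 < κ * β + μ * δ := by positivity
    linarith
  · exact hd h0

/-- **Lemma Q**: a centre with two clean ends of each type has a partner with exactly one clean
end of each type -/
theorem NetQ.exists_one_one (N : NetQ tE cE) {M v₁ v₂ q₁ q₂ : ℂ} (hv1 : tE M v₁)
    (hv2 : tE M v₂) (hv : v₁ ≠ v₂) (h1 : cE M q₁) (h2 : cE M q₂) (hq : q₁ ≠ q₂) :
    ∃ v q, tE M v ∧ cE M q ∧ tE (v + q - M) v ∧ cE (v + q - M) q ∧
      (∀ v', tE (v + q - M) v' → v' = v) ∧ ∀ q', cE (v + q - M) q' → q' = q := by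
  -- at most two ends of each type
  have card_c : ∀ {v q a b : ℂ}, tE M v → cE M a → cE M b → a ≠ b → cE M q →
      q = a ∨ q = b := by
    intro v q a b hv ha hb hab hq
    have ra := N.rh hv ha
    have rb := N.rh hv hb
    have r := N.rh hv hq
    rcases N.three_t ⟨hv, a, ha⟩ ⟨ra.1, a, ra.2⟩ ⟨rb.1, b, rb.2⟩ ⟨r.1, q, r.2⟩ with
      h | h | h | h | h | h
    · exact absurd h.symm (N.ne_z hv ha)
    · exact absurd h.symm (N.ne_z hv hb)
    · exact absurd h.symm (N.ne_z hv hq)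
    · exact absurd (by linear_combination h) hab
    · left; linear_combination -h
    · right; linear_combination -h
  obtain ⟨v, hvM, γ, δ, hγ, hδ, hn⟩ := N.exists_neg hv1 hv2 hv h1 h2 hq
  obtain ⟨q, hqM, κ, μ, hκ, hμ, hm⟩ := N.swap.exists_neg h1 h2 hq hv1 hv2 hv
  have r := N.rh hvM hqM
  refine ⟨v, q, hvM, hqM, r.1, r.2, ?_, ?_⟩
  · -- ends of the first type
    have hvv : v = v₁ ∨ v = v₂ := by
      have := NetQ.swap N
      have ra := this.rh h1 hv1
      have rb := this.rh h1 hv2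
      have rr := this.rh h1 hvM
      rcases this.three_t ⟨h1, v₁, hv1⟩ ⟨ra.1, v₁, ra.2⟩ ⟨rb.1, v₂, rb.2⟩ ⟨rr.1, v, rr.2⟩ with
        h | h | h | h | h | h
      · exact absurd h.symm (this.ne_z h1 hv1)
      · exact absurd h.symm (this.ne_z h1 hv2)
      · exact absurd h.symm (this.ne_z h1 hvM)
      · exact absurd (by linear_combination h) hv
      · left; linear_combination -h
      · right; linear_combination -h
    intro v' hv'
    rw [show v + q - M = q + v - M by ring] at hv'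
    rcases hvv with rfl | rfl
    · exact N.swap.only hqM hv1 hv2 hv hμ hm v' hv'
    · exact N.swap.only (γ := μ) hqM hv2 hv1 hv.symm hκ (by rw [hm]; ring) v' hv'
  · rcases card_c hvM h1 h2 hq hqM with rfl | rfl
    · exact N.only hvM h1 h2 hq hδ hn
    · exact N.only (γ := δ) hvM h2 h1 hq.symm hγ (by rw [hn]; ring)

/-- no centre with two clean ends of each type if every centre with clean ends of both types has a
third one -/
theorem NetQ.no_two_two (N : NetQ tE cE)
    (L2 : ∀ {z v q}, tE z v → cE z q → (∃ v', v' ≠ v ∧ tE z v') ∨ ∃ q', q' ≠ q ∧ cE z q')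
    {M v₁ v₂ q₁ q₂ : ℂ} (hv1 : tE M v₁) (hv2 : tE M v₂) (hv : v₁ ≠ v₂) (h1 : cE M q₁)
    (h2 : cE M q₂) (hq : q₁ ≠ q₂) : False := by
  obtain ⟨v, q, -, -, t, c, ut, uc⟩ := N.exists_one_one hv1 hv2 hv h1 h2 hq
  rcases L2 t c with ⟨v', hne, h⟩ | ⟨q', hne, h⟩
  · exact hne (ut v' h)
  · exact hne (uc q' h)

end Vale.Agent.P032.H556.NetQ
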