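import Vale.Agent.P032.H892.IndW
import Vale.Agent.P032.H556.Arc

/-!
# P032: the ends of an exact arc as starts of the generic induction (wild frame)

* `exists_comp` : the component of `interior (closure O)` (`O` open set of directions): `O` is generic inside, and
  directions off `closure O` accumulate from outside at both ends,
* `exists_gapL` : the start of a gap of `closure E`,
* `exact_end` : the end of an exact arc `T = {a, b}` of `S(z)`: all left states have the letter `{a, b}`, some right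
  state has not, and `a`, `b` belong to all points of the closed arc (PEND with SF of the wild machine),
* `exact_gap` : the start of a gap without exact letters (PEND = 2): some left state has an exact letter, no right
  state has one.
-/

open Set Filter Topology Metric

noncomputable section

namespace Vale.Agent.P032.H556

open Vale.Agent.P032.Six Vale.Agent.P032.H61 Vale.Agent.P032.H892 Vale.Agent.P032.H913 Vale.Agent.P032.S5.H767

variable {U : Fin 6 → Set ℂ} {T : ℂ → Set (Fin 6)}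

/-- an open set of reals is generic in its closure -/
theorem generic_closure {O : Set ℝ} (hO : IsOpen O) : ∀ᶠ v in DO, v ∈ closure O → v ∈ O := by
  refine ⟨(frontier O)ᶜ, ?_, isClosed_frontier.isOpen_compl, ?_⟩
  · intro v hv hc
    by_contra hn
    exact hv ⟨hc, by rwa [hO.interior_eq]⟩
  · rw [← interior_eq_empty_iff_dense_compl]
    rw [← frontier_compl]
    exact interior_frontier hO.isClosed_compl

/-- the component of `interior (closure O)` at a point -/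
theorem exists_comp {O : Set ℝ} (hO : IsOpen O) {s0 v1 v2 : ℝ} (h0 : s0 ∈ O) (h1 : s0 ≤ v1) (h2 : v2 ≤ s0)
    (hv1 : v1 ∉ closure O) (hv2 : v2 ∉ closure O) :
    ∃ α β, v2 ≤ α ∧ α < s0 ∧ s0 < β ∧ β ≤ v1 ∧ Icc α β ⊆ closure O ∧ (∃ᶠ v in 𝓝[>] β, v ∉ closure O) ∧
      (∃ᶠ v in 𝓝[<] α, v ∉ closure O) ∧ ∀ᶠ v in DO, v ∈ Ioo α β → v ∈ O := by
  set N := interior (closure O) with hN
  have hNo : IsOpen N := isOpen_interior
  have hsN : s0 ∈ N := (subset_interior_iff_isOpen.2 hO).trans (interior_mono subset_closure) h0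
  set B := {v | s0 ≤ v ∧ v ∉ N} with hB
  set A := {v | v ≤ s0 ∧ v ∉ N} with hA
  have hBc : IsClosed B := (isClosed_Ici).inter hNo.isClosed_compl
  have hAc : IsClosed A := (isClosed_Iic).inter hNo.isClosed_compl
  have hBne : B.Nonempty := ⟨v1, h1, fun hc => hv1 (interior_subset hc)⟩
  have hAne : A.Nonempty := ⟨v2, h2, fun hc => hv2 (interior_subset hc)⟩
  have hBb : BddBelow B := ⟨s0, fun v hv => hv.1⟩
  have hAb : BddAbove A := ⟨s0, fun v hv => hv.1⟩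
  have hβ : sInf B ∈ B := hBc.csInf_mem hBne hBb
  have hα : sSup A ∈ A := hAc.csSup_mem hAne hAb
  set β := sInf B with hβd
  set α := sSup A with hαd
  have hβs : s0 < β := lt_of_le_of_ne hβ.1 fun e => hβ.2 (e ▸ hsN)
  have hαs : α < s0 := lt_of_le_of_ne hα.1 fun e => hα.2 (e ▸ hsN)
  have hsub : Ioo α β ⊆ N := by
    intro v hv
    by_contra hc
    rcases le_total s0 v with h3 | h3
    · exact absurd (csInf_le hBb ⟨h3, hc⟩) (not_le.2 hv.2)
    · exact absurd (le_csSup hAb ⟨h3, hc⟩) (not_le.2 hv.1)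
  have hIcc : Icc α β ⊆ closure O := by
    rw [← closure_Ioo (hαs.trans hβs).ne]
    exact closure_minimal (hsub.trans interior_subset) isClosed_closure
  refine ⟨α, β, ?_, hαs, hβs, ?_, hIcc, ?_, ?_, ?_⟩
  · exact le_csSup hAb ⟨h2, fun hc => hv2 (interior_subset hc)⟩
  · exact csInf_le hBb ⟨h1, fun hc => hv1 (interior_subset hc)⟩
  · intro hcon
    refine hβ.2 (mem_interior_iff_mem_nhds.2 ?_)
    have h3 : ∀ᶠ v in 𝓝[>] β, v ∈ closure O := hcon.mono fun v hv => not_not.1 hv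
    have h4 : ∀ᶠ v in 𝓝[≤] β, v ∈ closure O := by
      filter_upwards [Ioc_mem_nhdsLE (hαs.trans hβs)] with v hv using hIcc ⟨hv.1.le, hv.2⟩
    have h5 : ∀ᶠ v in 𝓝[≤] β ⊔ 𝓝[>] β, v ∈ closure O := eventually_sup.2 ⟨h4, h3⟩
    rwa [nhdsLE_sup_nhdsGT] at h5
  · intro hcon
    refine hα.2 (mem_interior_iff_mem_nhds.2 ?_)
    have h3 : ∀ᶠ v in 𝓝[<] α, v ∈ closure O := hcon.mono fun v hv => not_not.1 hv
    have h4 : ∀ᶠ v in 𝓝[≥] α, v ∈ closure O := by
      filter_upwards [Ico_mem_nhdsGE (hαs.trans hβs)] with v hv using hIcc ⟨hv.1, hv.2.le⟩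
    have h5 : ∀ᶠ v in 𝓝[<] α ⊔ 𝓝[≥] α, v ∈ closure O := eventually_sup.2 ⟨h3, h4⟩
    rwa [nhdsLT_sup_nhdsGE] at h5
  · filter_upwards [generic_closure hO] with v hv h3
    exact hv (hIcc (Ioo_subset_Icc_self h3))

/-- the start of a gap of `closure E` -/
theorem exists_gapL {E : Set ℝ} (hE : IsOpen E) {e0 g0 : ℝ} (h0 : e0 ∈ E) (hg : g0 ∉ closure E) (h1 : e0 ≤ g0) :
    ∃ γ, e0 < γ ∧ γ < g0 ∧ (∀ v ∈ Ioc γ g0, v ∉ closure E) ∧ ∃ᶠ v in 𝓝[<] γ, v ∈ E := by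
  set A := {v | v ≤ g0 ∧ v ∈ closure E} with hA
  have hAc : IsClosed A := isClosed_Iic.inter isClosed_closure
  have hAb : BddAbove A := ⟨g0, fun v hv => hv.1⟩
  have hAne : A.Nonempty := ⟨e0, h1, subset_closure h0⟩
  have hγ : sSup A ∈ A := hAc.csSup_mem hAne hAb
  set γ := sSup A with hγd
  have hγg : γ < g0 := lt_of_le_of_ne hγ.1 fun e => hg (e ▸ hγ.2)
  have hgap : ∀ v ∈ Ioc γ g0, v ∉ closure E := fun v hv hc =>
    absurd (le_csSup hAb ⟨hv.2, hc⟩) (not_le.2 hv.1)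
  have heγ : e0 < γ := by
    rcases (le_csSup hAb ⟨h1, subset_closure h0⟩ : e0 ≤ γ).eq_or_lt with h2 | h2
    · exfalso
      have h3 : ∀ᶠ v in 𝓝[>] e0, v ∈ E := nhdsWithin_le_nhds (hE.mem_nhds h0)
      have h4 : ∀ᶠ v in 𝓝[>] e0, v ∈ Ioo e0 g0 := Ioo_mem_nhdsGT (lt_of_le_of_lt h2.le hγg)
      obtain ⟨v, h5, h6⟩ := (h3.and h4).exists
      exact hgap v ⟨lt_of_le_of_lt h2.ge h6.1, h6.2.le⟩ (subset_closure h5)
    · exact h2
  refine ⟨γ, heγ, hγg, hgap, ?_⟩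
  intro hcon
  have h2 : ∀ᶠ v in 𝓝[>] γ, v ∉ E := by
    filter_upwards [Ioo_mem_nhdsGT hγg] with v hv hc using hgap v ⟨hv.1, hv.2.le⟩ (subset_closure hc)
  have hγE : γ ∉ E := by
    intro hc
    have h3 : ∀ᶠ v in 𝓝[>] γ, v ∈ E := nhdsWithin_le_nhds (hE.mem_nhds hc)
    obtain ⟨v, h5, h6⟩ := (h3.and h2).exists
    exact h6 h5
  have h3 : ∀ᶠ v in 𝓝[≠] γ, v ∉ E := by
    rw [← nhdsLT_sup_nhdsGT]
    exact eventually_sup.2 ⟨hcon, h2⟩
  have h4 : ∀ᶠ v in 𝓝 γ, v ∉ E := by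
    rw [eventually_nhdsWithin_iff] at h3
    filter_upwards [h3] with v hv
    by_cases h5 : v = γ
    · rwa [h5]
    · exact hv h5
  exact (mem_closure_iff_frequently.1 hγ.2) h4

/-- the directions where the palette of the circle is locally constant and equal to `L` -/
def Lc (T : ℂ → Set (Fin 6)) (z : ℂ) (L : Set (Fin 6)) : Set ℝ := {v | ∀ᶠ w in 𝓝 v, T (pt z w) = L}

theorem isOpen_lc (T : ℂ → Set (Fin 6)) (z : ℂ) (L : Set (Fin 6)) : IsOpen (Lc T z L) := by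
  rw [isOpen_iff_mem_nhds]
  intro v hv
  have hv : ∀ᶠ w in 𝓝 v, T (pt z w) = L := hv
  filter_upwards [hv.eventually_nhds] with w hw using hw

theorem lc_mem (h : Irr U T) {z : ℂ} {L : Set (Fin 6)} {c : Fin 6} (hc : c ∈ L) :
    closure (Lc T z L) ⊆ {v | c ∈ T (pt z v)} := by
  refine closure_minimal (fun v hv => ?_) ((h.closed c).preimage (continuous_pt z))
  have hv : ∀ᶠ w in 𝓝 v, T (pt z w) = L := hv
  show c ∈ T (pt z v)
  rw [hv.self_of_nhds]
  exact hc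

/-- 60 degrees off an arc of `L` there is no arc of `L` -/
theorem lc_sixty (h : Irr U T) {z : ℂ} {L : Set (Fin 6)} {c : Fin 6} (hc : c ∈ L) {s : ℝ} (hs : s ∈ Lc T z L)
    {o : ℝ} (ho : o = 1 ∨ o = -1) : s + o ∉ closure (Lc T z L) := by
  intro hcl
  have hs : ∀ᶠ w in 𝓝 s, T (pt z w) = L := hs
  obtain ⟨r, hr, hsub⟩ := Metric.eventually_nhds_iff.1 hs
  have hF : Fs T z (s - r / 2) (s + r / 2) c := by
    intro v hv
    rw [hsub (by rw [Real.dist_eq, abs_lt]; constructor <;> linarith [hv.1, hv.2])]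
    exact hc
  have h1 := lc_mem h hc hcl
  have h1 : c ∈ T (pt z (s + o)) := h1
  rcases ho with rfl | rfl
  · exact hF.not_occ_sixty h ⟨s + 1, ⟨by linarith, by linarith⟩, h1⟩
  · exact hF.not_occ_sixty' h ⟨s + -1, ⟨by linarith, by linarith⟩, h1⟩

/-- **the arc of a letter** (PEND, both ends): the maximal interval in which the letter `L` is generic -/
theorem lc_comp (h : Irr U T) {z : ℂ} {L : Set (Fin 6)} (hL : L.Nonempty) {s0 : ℝ} (hs : s0 ∈ Lc T z L) :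
    ∃ α β, s0 - 1 ≤ α ∧ α < s0 ∧ s0 < β ∧ β ≤ s0 + 1 ∧ (∀ c ∈ L, Fs T z α β c) ∧
      (∃ᶠ v in 𝓝[>] β, v ∉ closure (Lc T z L)) ∧ (∃ᶠ v in 𝓝[<] α, v ∉ closure (Lc T z L)) ∧
      ∀ᶠ v in DO, v ∈ Ioo α β → v ∈ Lc T z L := by
  obtain ⟨c, hc⟩ := hL
  obtain ⟨α, β, h1, h2, h3, h4, h5, h6, h7, h8⟩ := exists_comp (isOpen_lc T z L) hs (v1 := s0 + 1) (v2 := s0 - 1)
    (by linarith) (by linarith) (lc_sixty h hc hs (Or.inl rfl))
    (by rw [sub_eq_add_neg]; exact lc_sixty h hc hs (Or.inr rfl))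
  exact ⟨α, β, h1, h2, h3, h4, fun d hd v hv => lc_mem h hd (h5 hv), h6, h7, h8⟩

section states
variable {M : Type*} {X : M → ℂ} {off : M → ℝ} {v u : ℝ} {σ : M → Set (Fin 6) × Set (Fin 6)}

theorem ip_lc (h : Irr U T) {x : ℂ} {s : ℝ} {P Q : Set (Fin 6)} (I : IP U T x s P Q) : s ∈ Lc T x (P ∪ Q) := by
  have h1 := I.loc
  rw [I.union h] at h1
  exact h1

/-- all left states of a generic arc have its letter -/
theorem letter_L (h : Irr U T) {i : M} {L : Set (Fin 6)} {α : ℝ} (hα : α < u)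
    (hg : ∀ᶠ v in DO, v ∈ Ioo α u → v + off i ∈ Lc T (X i) L) :
    ∀ σ ∈ LSt DO (IPs U T X off) u, (σ i).1 ∪ (σ i).2 = L := by
  intro σ hσ
  have hσ : ∃ᶠ v in 𝓝[<] u ⊓ DO, IPs U T X off v σ := hσ
  have h1 : ∀ᶠ v in 𝓝[<] u ⊓ DO, v ∈ Ioo α u := mem_inf_of_left (Ioo_mem_nhdsLT hα)
  obtain ⟨v, h2, h3, h4⟩ := (hσ.and_eventually (h1.and (hg.filter_mono inf_le_right))).exists
  have h5 : ∀ᶠ w in 𝓝 (v + off i), T (pt (X i) w) = L := h4 h3
  rw [← (h2 i).union h, h5.self_of_nhds]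

theorem letter_R (h : Irr U T) {i : M} {L : Set (Fin 6)} {β : ℝ} (hβ : u < β)
    (hg : ∀ᶠ v in DO, v ∈ Ioo u β → v + off i ∈ Lc T (X i) L) :
    ∀ σ ∈ RSt DO (IPs U T X off) u, (σ i).1 ∪ (σ i).2 = L := by
  intro σ hσ
  have hσ : ∃ᶠ v in 𝓝[>] u ⊓ DO, IPs U T X off v σ := hσ
  have h1 : ∀ᶠ v in 𝓝[>] u ⊓ DO, v ∈ Ioo u β := mem_inf_of_left (Ioo_mem_nhdsGT hβ)
  obtain ⟨v, h2, h3, h4⟩ := (hσ.and_eventually (h1.and (hg.filter_mono inf_le_right))).exists
  have h5 : ∀ᶠ w in 𝓝 (v + off i), T (pt (X i) w) = L := h4 h3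
  rw [← (h2 i).union h, h5.self_of_nhds]

/-- an open set of times which accumulates along `l` has a state -/
theorem some_state (h : Irr U T) [Finite M] (X : M → ℂ) (off : M → ℝ) {W : Set ℝ} (hW : IsOpen W) {l : Filter ℝ}
    (hl : ∃ᶠ v in l, v ∈ W) (hlO : ∀ N ∈ l, ∃ O ∈ l, O ⊆ N ∧ IsOpen O) :
    ∃ σ, ∃ᶠ v in l ⊓ DO, v ∈ W ∧ IPs U T X off v σ := by
  have h1 : ∃ᶠ v in l ⊓ DO, v ∈ W := by
    rw [frequently_iff]
    intro N hN
    obtain ⟨A, hA, B, ⟨G, hGB, hGo, hGd⟩, rfl⟩ := mem_inf_iff.1 hN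
    obtain ⟨O, hOl, hOA, hO⟩ := hlO A hA
    obtain ⟨v, hv, hvW⟩ := (frequently_iff.1 hl) hOl
    obtain ⟨w, hw1, hw2⟩ := dense_iff_inter_open.1 hGd _ (hO.inter hW) ⟨v, hv, hvW⟩
    exact ⟨w, ⟨hOA hw1.1, hGB hw2⟩, hw1.2⟩
  have h2 : ∀ᶠ v in l ⊓ DO, ∃ σ, IPs U T X off v σ := (ips_DO h X off).filter_mono inf_le_right
  have h3 : ∃ᶠ v in l ⊓ DO, ∃ σ, v ∈ W ∧ IPs U T X off v σ :=
    (h1.and_eventually h2).mono fun v hv => ⟨hv.2.choose, hv.1, hv.2.choose_spec⟩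
  have : Finite (M → Set (Fin 6) × Set (Fin 6)) := Pi.finite
  exact frequently_exists.1 (h3.mono fun v hv => hv)

theorem basis_R (u : ℝ) : ∀ N ∈ 𝓝[>] u, ∃ O ∈ 𝓝[>] u, O ⊆ N ∧ IsOpen O := by
  intro N hN
  obtain ⟨c, hc, hsub⟩ := (mem_nhdsGT_iff_exists_Ioo_subset (a := u)).1 hN
  exact ⟨Ioo u c, Ioo_mem_nhdsGT hc, hsub, isOpen_Ioo⟩

theorem basis_L (u : ℝ) : ∀ N ∈ 𝓝[<] u, ∃ O ∈ 𝓝[<] u, O ⊆ N ∧ IsOpen O := by
  intro N hN
  obtain ⟨c, hc, hsub⟩ := (mem_nhdsLT_iff_exists_Ioo_subset (a := u)).1 hN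
  exact ⟨Ioo c u, Ioo_mem_nhdsLT hc, hsub, isOpen_Ioo⟩

/-- the directions where the letter is locally constant and belongs to a family of letters -/
def Ls (T : ℂ → Set (Fin 6)) (z : ℂ) (F : Set (Set (Fin 6))) : Set ℝ := ⋃ L ∈ F, Lc T z L

theorem isOpen_ls (T : ℂ → Set (Fin 6)) (z : ℂ) (F : Set (Set (Fin 6))) : IsOpen (Ls T z F) :=
  isOpen_biUnion fun L _ => isOpen_lc T z L

theorem ip_ls (h : Irr U T) {x : ℂ} {s : ℝ} {P Q : Set (Fin 6)} (I : IP U T x s P Q) {F : Set (Set (Fin 6))} :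
    s ∈ Ls T x F ↔ P ∪ Q ∈ F := by
  have h1 : ∀ᶠ w in 𝓝 s, T (pt x w) = P ∪ Q := ip_lc h I
  constructor
  · intro hs
    obtain ⟨L, hL, h2⟩ := mem_iUnion₂.1 hs
    have h2 : ∀ᶠ w in 𝓝 s, T (pt x w) = L := h2
    rw [← h1.self_of_nhds, h2.self_of_nhds]
    exact hL
  · exact fun hs => mem_iUnion₂.2 ⟨_, hs, h1⟩

theorem tendsto_sub_R (u o : ℝ) : Tendsto (fun v : ℝ => v - o) (𝓝[>] (u + o)) (𝓝[>] u) := by
  refine tendsto_nhdsWithin_of_tendsto_nhds_of_eventually_within _ ?_ ?_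
  · exact (tendsto_sub_o u o).mono_left nhdsWithin_le_nhds
  · filter_upwards [self_mem_nhdsWithin] with v hv
    have hv : u + o < v := hv
    show u < v - o
    linarith

theorem tendsto_sub_L (u o : ℝ) : Tendsto (fun v : ℝ => v - o) (𝓝[<] (u + o)) (𝓝[<] u) := by
  refine tendsto_nhdsWithin_of_tendsto_nhds_of_eventually_within _ ?_ ?_
  · exact (tendsto_sub_o u o).mono_left nhdsWithin_le_nhds
  · filter_upwards [self_mem_nhdsWithin] with v hv
    have hv : v < u + o := hv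
    show v - o < u
    linarith

theorem shift_DO {O : Set ℝ} (hO : IsOpen O) (o : ℝ) : ∀ᶠ v in DO, v + o ∈ closure O → v + o ∈ O := by
  have hc : Continuous fun v : ℝ => v + o := by fun_prop
  have h1 := generic_closure (hO.preimage hc)
  filter_upwards [h1] with v hv h2
  refine hv (mem_closure_iff.2 fun W hW hvW => ?_)
  obtain ⟨w, h3, h4⟩ := mem_closure_iff.1 h2 ((fun v : ℝ => v - o) ⁻¹' W) (hW.preimage (by fun_prop))
    (by show v + o - o ∈ W; rwa [add_sub_cancel_right])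
  exact ⟨w - o, h3, by show w - o + o ∈ O; rwa [sub_add_cancel]⟩

/-- **the end of an arc with the letter `L`** (PEND): there is a time `u` such that `L` is carried by the closed arc
before `u`, all left states have the letter `L` at the node `i`, and some right state has another letter -/
theorem exact_end (h : Irr U T) [Finite M] (X : M → ℂ) (off : M → ℝ) (i : M) {L : Set (Fin 6)} (hL : L.Nonempty)
    {s0 : ℝ} (hs : s0 ∈ Lc T (X i) L) :
    ∃ u, s0 - off i < u ∧ u ≤ s0 - off i + 1 ∧ (∀ c ∈ L, Fs T (X i) s0 (u + off i) c) ∧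
      (∀ σ ∈ LSt DO (IPs U T X off) u, (σ i).1 ∪ (σ i).2 = L) ∧
      ∃ σ ∈ RSt DO (IPs U T X off) u, (σ i).1 ∪ (σ i).2 ≠ L := by
  obtain ⟨α, β, h1, h2, h3, h4, h5, h6, -, h8⟩ := lc_comp h hL hs
  have e : β - off i + off i = β := sub_add_cancel _ _
  refine ⟨β - off i, by linarith, by linarith, ?_, ?_, ?_⟩
  · rw [e]
    exact fun c hc v hv => h5 c hc v ⟨h2.le.trans hv.1, hv.2⟩
  · have hα : α - off i < β - off i := by linarith
    refine letter_L h hα ?_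
    have h9 : ∀ᶠ v in DO, v + off i ∈ closure (Lc T (X i) L) → v + off i ∈ Lc T (X i) L :=
      shift_DO (isOpen_lc T (X i) L) (off i)
    filter_upwards [h9] with v hv h10
    refine hv ?_
    have h11 : v + off i ∈ Ioo α β := ⟨by linarith [h10.1], by linarith [h10.2]⟩
    -- generic directions are dense
    obtain ⟨G, hG, hGo, hGd⟩ := h8
    refine mem_closure_iff.2 fun W hW hvW => ?_
    obtain ⟨w, hw1, hw2⟩ := dense_iff_inter_open.1 hGd _ (hW.inter isOpen_Ioo) ⟨_, hvW, h11⟩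
    exact ⟨w, hw1.1, hG hw2 hw1.2⟩
  · set W : Set ℝ := (fun v : ℝ => v + off i) ⁻¹' (closure (Lc T (X i) L))ᶜ with hW
    have hWo : IsOpen W := isClosed_closure.isOpen_compl.preimage (by fun_prop)
    have h9 : ∃ᶠ v in 𝓝[>] (β - off i), v ∈ W := by
      have h10 := (tendsto_sub_R (β - off i) (off i))
      rw [e] at h10
      refine h10.frequently (h6.mono fun v hv => ?_)
      show v - off i + off i ∉ closure (Lc T (X i) L)
      rwa [sub_add_cancel]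
    obtain ⟨σ, hσ⟩ := some_state h X off hWo h9 (basis_R _)
    refine ⟨σ, (hσ.mono fun v hv => hv.2 : ∃ᶠ v in 𝓝[>] (β - off i) ⊓ DO, IPs U T X off v σ), fun hcon => ?_⟩
    obtain ⟨v, h11, h12⟩ := hσ.exists
    exact h11 (subset_closure (by rw [← hcon]; exact ip_lc h (h12 i)))

/-- **the start of a gap of the letters of a family `F`** (PEND = 2): some left state has a letter in `F`, no right
state has one -/
theorem gap_start (h : Irr U T) [Finite M] (X : M → ℂ) (off : M → ℝ) (i : M) {F : Set (Set (Fin 6))}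
    {e0 g0 : ℝ} (h0 : e0 ∈ Ls T (X i) F) (hg : g0 ∉ closure (Ls T (X i) F)) (h1 : e0 ≤ g0) :
    ∃ u, e0 - off i < u ∧ u < g0 - off i ∧ (∃ σ ∈ LSt DO (IPs U T X off) u, (σ i).1 ∪ (σ i).2 ∈ F) ∧
      ∀ v ∈ Ico u (g0 - off i), ∀ σ ∈ RSt DO (IPs U T X off) v, (σ i).1 ∪ (σ i).2 ∉ F := by
  obtain ⟨γ, h2, h3, h4, h5⟩ := exists_gapL (isOpen_ls T (X i) F) h0 hg h1
  have e : γ - off i + off i = γ := sub_add_cancel _ _
  refine ⟨γ - off i, by linarith, by linarith, ?_, ?_⟩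
  · set W : Set ℝ := (fun v : ℝ => v + off i) ⁻¹' (Ls T (X i) F) with hW
    have hWo : IsOpen W := (isOpen_ls T (X i) F).preimage (by fun_prop)
    have h9 : ∃ᶠ v in 𝓝[<] (γ - off i), v ∈ W := by
      have h10 := (tendsto_sub_L (γ - off i) (off i))
      rw [e] at h10
      refine h10.frequently (h5.mono fun v hv => ?_)
      show v - off i + off i ∈ Ls T (X i) F
      rwa [sub_add_cancel]
    obtain ⟨σ, hσ⟩ := some_state h X off hWo h9 (basis_L _)
    refine ⟨σ, (hσ.mono fun v hv => hv.2 : ∃ᶠ v in 𝓝[<] (γ - off i) ⊓ DO, IPs U T X off v σ), ?_⟩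
    obtain ⟨v, h11, h12⟩ := hσ.exists
    exact (ip_ls h (h12 i)).1 h11
  · intro v hv σ hσ hcon
    have hσ : ∃ᶠ w in 𝓝[>] v ⊓ DO, IPs U T X off w σ := hσ
    have h6 : ∀ᶠ w in 𝓝[>] v ⊓ DO, w ∈ Ioo v (g0 - off i) := mem_inf_of_left (Ioo_mem_nhdsGT hv.2)
    obtain ⟨w, h7, h8⟩ := (hσ.and_eventually h6).exists
    exact h4 (w + off i) ⟨by linarith [h8.1, hv.1], by linarith [h8.2]⟩
      (subset_closure ((ip_ls h (h7 i)).2 hcon))

end states

end Vale.Agent.P032.H556
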