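import Vale.Agent.P032.H556.Wp
import Vale.Agent.P032.H357.CiCo

/-!
# P032: palette words: sources against letters, joint colourings

Frame `Irr U T` only.

* `Wp.ci`, `Wp.co`, `Wp.ci_cell`, `Wp.co_cell` : a connected set of colour `c` through the centre (a cell of one colour)
  and the letters; `Wp.ray_R`, `Wp.ray_L`, `Wp.sector_R`, `Wp.sector_L` : the tangent cells.
* `joint` : one displacement for all points: a proper colouring by pure colours; `FamP.joint` : together with the letter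
  points at the common shift.
-/

open Set Filter Topology Metric

noncomputable section

namespace Vale.Agent.P032.H556

open Vale.Agent.P032.Six Vale.Agent.P032.Words Vale.Agent.P032.S5.H767 Vale.Agent.P032.H892
  Vale.Agent.P032.H913 Vale.Agent.P032.H357 Vale.Agent.P032.H61

variable {U : Fin 6 → Set ℂ} {T : ℂ → Set (Fin 6)} {x : ℂ} {s : ℝ} {P Q : Set (Fin 6)} {c : Fin 6}

namespace IP

variable (I : IP U T x s P Q)
include I

theorem ou (h : Irr U T) (hc : c ∈ Q) : Ou (U c) (pt x s) x :=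
  ((I.out c).1 hc).mono fun _ hy => ⟨sq_sub h c hy.1, hy.2.le⟩

theorem inn' (h : Irr U T) (hc : c ∈ P) : In (U c) (pt x s) x :=
  ((I.inn c).1 hc).mono fun _ hy => ⟨sq_sub h c hy.1, hy.2⟩

theorem ci (h : Irr U T) (S : Ci U c x (pt x s)) : c ∉ Q := fun hc => S.ou h (I.ou h hc)

theorem co (h : Irr U T) (S : Co U c x (pt x s)) : c ∉ P := fun hc => S.inn h (I.inn' h hc)

end IP

namespace FamP

variable {J : Type*} {l : Filter ℝ} {X : J → ℂ} {t : J → ℝ} {P Q : J → Set (Fin 6)}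
variable (F : FamP U T l X t P Q)
include F

theorem ci (h : Irr U T) (hl : Side l) {j : J} (S : Ci U c (X j) (pt (X j) (t j))) : c ∉ Q j := fun hc =>
  S.ou h ((F.out_at hl hc).mono fun _ hy => ⟨sq_sub h c hy.1, hy.2.le⟩)

theorem co (h : Irr U T) (hl : Side l) {j : J} (S : Co U c (X j) (pt (X j) (t j))) : c ∉ P j := fun hc =>
  S.inn h ((F.inn_at hl hc).mono fun _ hy => ⟨sq_sub h c hy.1, hy.2⟩)

theorem ci_ev (h : Irr U T) {j : J} (S : ∀ᶠ τ in l, Ci U c (X j) (pt (X j) (t j + τ))) : c ∉ Q j := by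
  obtain ⟨τ, h1, h2⟩ := F.exists_at S
  exact (h2 j).ci h h1

theorem co_ev (h : Irr U T) {j : J} (S : ∀ᶠ τ in l, Co U c (X j) (pt (X j) (t j + τ))) : c ∉ P j := by
  obtain ⟨τ, h1, h2⟩ := F.exists_at S
  exact (h2 j).co h h1

end FamP

namespace Wp

variable {J : Type*} {K : ℕ} {a : ℕ → ℝ} {X : J → ℂ} {W : J → ℕ → ℕ → ℕ → Set (Fin 6)}
variable (D : Wp U T K a X W)
include D

/-- **L8**, inner source -/
theorem ci (h : Irr U T) {j : J} {t sd : ℕ} (S : Ci U c (X j) (X j + dir (a t))) : c ∉ W j t sd 1 :=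
  (D.fam sd).ci h (sdf_side sd) (j := (j, t)) S

/-- **L8**, outer source -/
theorem co (h : Irr U T) {j : J} {t sd : ℕ} (S : Co U c (X j) (X j + dir (a t))) : c ∉ W j t sd 0 :=
  (D.fam sd).co h (sdf_side sd) (j := (j, t)) S

/-- a cell of one colour inside -/
theorem ci_cell (h : Irr U T) (A : Tick K a) {j : J} {t sd k d : ℕ} (hk : k ≤ 3) (hd : d < 6 * K)
    (hin : InC K k d) (hs : So T (X j) a k (t + d) c) : c ∉ W j t sd 1 :=
  D.ci h (H357.ci_cell A h hk hd hin hs)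

/-- a cell of one colour outside -/
theorem co_cell (h : Irr U T) (A : Tick K a) {j : J} {t sd k d : ℕ} (hk : k ≤ 3) (hd : d < 6 * K)
    (hout : ¬ InC K k d) (hs : So T (X j) a k (t + d) c) : c ∉ W j t sd 0 :=
  D.co h (H357.co_cell A h hk hd hout hs)

omit D in
theorem ev_small : ∀ᶠ τ : ℝ in 𝓝[>] 0, 0 < τ ∧ τ < 1 := by
  filter_upwards [Ioo_mem_nhdsGT (one_pos : (0 : ℝ) < 1)] with τ hτ
  exact ⟨hτ.1, hτ.2⟩

omit D in
theorem ev_small' : ∀ᶠ τ : ℝ in 𝓝[<] 0, -1 < τ ∧ τ < 0 := by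
  filter_upwards [Ioo_mem_nhdsLT (by norm_num : (-1 : ℝ) < 0)] with τ hτ
  exact ⟨hτ.1, hτ.2⟩

/-- after the tick: the ray `t` counts as inside -/
theorem ray_R (h : Irr U T) {j : J} {t k : ℕ} (hk : k ≠ 0) (hs : So T (X j) a k t c) : c ∉ W j t 1 1 := by
  refine D.famR.ci_ev h (j := (j, t)) ?_
  filter_upwards [ev_small] with τ hτ
  refine ci_ray (u := a t + τ) h hk hs ?_
  have := ray_pos hτ.1 hτ.2
  rwa [show (ra a t - (a t + τ)) * (Real.pi / 3) = (3 / 2 - τ) * (Real.pi / 3) by unfold ra; ring]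

/-- after the tick: the ray `t + 3 K` counts as outside -/
theorem ray_R' (h : Irr U T) (A : Tick K a) {j : J} {t k : ℕ} (hk : k ≠ 0)
    (hs : So T (X j) a k (t + 3 * K) c) : c ∉ W j t 1 0 := by
  refine D.famR.co_ev h (j := (j, t)) ?_
  filter_upwards [ev_small] with τ hτ
  refine co_ray (u := a t + τ) h hk hs ?_
  rw [CK.ra_half A]
  exact cos_neg_of (by unfold ra; linarith [hτ.2]) (by unfold ra; linarith [hτ.1])

/-- before the tick: the ray `t` counts as outside -/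
theorem ray_L (h : Irr U T) {j : J} {t k : ℕ} (hk : k ≠ 0) (hs : So T (X j) a k t c) : c ∉ W j t 0 0 := by
  refine D.famL.co_ev h (j := (j, t)) ?_
  filter_upwards [ev_small'] with τ hτ
  refine co_ray (u := a t + τ) h hk hs ?_
  exact cos_neg_of (by unfold ra; linarith [hτ.2]) (by unfold ra; linarith [hτ.1])

/-- before the tick: the ray `t + 3 K` counts as inside -/
theorem ray_L' (h : Irr U T) (A : Tick K a) {j : J} {t k : ℕ} (hk : k ≠ 0)
    (hs : So T (X j) a k (t + 3 * K) c) : c ∉ W j t 0 1 := by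
  refine D.famL.ci_ev h (j := (j, t)) ?_
  filter_upwards [ev_small'] with τ hτ
  refine ci_ray (u := a t + τ) h hk hs ?_
  rw [CK.ra_half A]
  exact CK.cos_pos_six (by unfold ra; linarith [hτ.2]) (by unfold ra; linarith [hτ.1])

/-- after the tick: the sector `t` -/
theorem sector_R (h : Irr U T) (A : Tick K a) {j : J} {t : ℕ} (hs : So T (X j) a 0 t c) :
    c ∉ W j t 1 0 ∧ c ∉ W j t 1 1 := by
  have hK := A.pos
  refine ⟨D.co_cell h A (d := 0) (by norm_num) (by omega) (fun hc => ?_) hs, ?_⟩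
  · rcases hc with ⟨-, h1⟩ | ⟨h1, -⟩
    · omega
    · exact h1 rfl
  · refine D.famR.ci_ev h (j := (j, t)) ?_
    have h1 : ∀ᶠ τ : ℝ in 𝓝[>] 0, τ < ra a (t + 1) - ra a t :=
      (eventually_lt_nhds (sub_pos.2 (CK.ra_lt A (Nat.lt_succ_self t)))).filter_mono nhdsWithin_le_nhds
    filter_upwards [ev_small, h1] with τ hτ h2
    refine solid_sector h (θ := ra a t + τ / 2) ⟨by linarith [hτ.1], by linarith [hτ.1]⟩ hs
      (po_in (u := a t + τ) ?_)
    have := ray_pos (d := τ / 2) (by linarith [hτ.1]) (by linarith [hτ.2])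
    rwa [show (ra a t + τ / 2 - (a t + τ)) * (Real.pi / 3) = (3 / 2 - τ / 2) * (Real.pi / 3) by
      unfold ra; ring]

/-- after the tick: the sector `t + 3 K` -/
theorem sector_R' (h : Irr U T) (A : Tick K a) {j : J} {t : ℕ} (hs : So T (X j) a 0 (t + 3 * K) c) :
    c ∉ W j t 1 0 ∧ c ∉ W j t 1 1 := by
  have hK := A.pos
  refine ⟨?_, D.ci_cell h A (d := 3 * K) (by norm_num) (by omega) (Or.inl ⟨rfl, le_rfl⟩) hs⟩
  refine D.famR.co_ev h (j := (j, t)) ?_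
  have h1 : ∀ᶠ τ : ℝ in 𝓝[>] 0, τ < ra a (t + 3 * K + 1) - ra a (t + 3 * K) :=
    (eventually_lt_nhds (sub_pos.2 (CK.ra_lt A (Nat.lt_succ_self (t + 3 * K))))).filter_mono nhdsWithin_le_nhds
  filter_upwards [ev_small, h1] with τ hτ h2
  refine solid_sector h (θ := ra a (t + 3 * K) + τ / 2) ⟨by linarith [hτ.1], by linarith [hτ.1]⟩ hs
    (po_out (u := a t + τ) ?_)
  rw [CK.ra_half A]
  exact cos_neg_of (by unfold ra; linarith [hτ.2]) (by unfold ra; linarith [hτ.1])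

end Wp

/-! ### joint colourings -/

theorem isOpen_single (h : Irr U T) (c : Fin 6) : IsOpen {w | T w = {c}} := by
  rw [isOpen_iff_mem_nhds]
  intro w hw
  have hw : T w = {c} := hw
  filter_upwards [h.nhd w] with v hv
  obtain ⟨j, hj⟩ := h.ne v
  rw [hw] at hv
  have h1 : j = c := by simpa using hv hj
  exact Subset.antisymm hv (by rintro m rfl; exact h1 ▸ hj)

/-- finitely many points can be made pure by a small common displacement -/
theorem exists_all (h : Irr U T) {J : Type*} [Finite J] (Y : J → ℂ) {O : Set ℂ} (hO : IsOpen O)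
    (hne : O.Nonempty) : ∃ δ ∈ O, ∃ s : J → Fin 6, ∀ j, T (Y j + δ) = {s j} := by
  classical
  have := Fintype.ofFinite J
  have key : ∀ F : Finset J, ∃ O' ⊆ O, IsOpen O' ∧ O'.Nonempty ∧ ∀ j ∈ F, ∃ c, ∀ δ ∈ O', T (Y j + δ) = {c} := by
    intro F
    induction F using Finset.induction_on with
    | empty => exact ⟨O, Subset.rfl, hO, hne, fun j hj => absurd hj (Finset.notMem_empty j)⟩
    | insert b F hb ih =>
      obtain ⟨O', h1, h2, ⟨δ0, h3⟩, h4⟩ := ih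
      obtain ⟨i, hi⟩ := h.ne (Y b + δ0)
      have h5 : ∃ᶠ w in 𝓝 (Y b + δ0), T w = {i} := h.pure _ i hi
      have h6 : ∀ᶠ w in 𝓝 (Y b + δ0), w - Y b ∈ O' := by
        have : Tendsto (fun w : ℂ => w - Y b) (𝓝 (Y b + δ0)) (𝓝 δ0) := by
          have h7 : Continuous fun w : ℂ => w - Y b := by fun_prop
          have h8 := h7.tendsto (Y b + δ0)
          rwa [add_sub_cancel_left] at h8
        exact this.eventually (h2.mem_nhds h3)
      obtain ⟨w, h7, h8⟩ := (h5.and_eventually h6).exists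
      have hc : Continuous fun δ : ℂ => Y b + δ := by fun_prop
      refine ⟨O' ∩ (fun δ => Y b + δ) ⁻¹' {w | T w = {i}}, fun δ hδ => h1 hδ.1,
        h2.inter ((isOpen_single h i).preimage hc), ⟨w - Y b, h8, by
          show T (Y b + (w - Y b)) = {i}
          rw [add_sub_cancel]; exact h7⟩, ?_⟩
      intro j hj
      rcases Finset.mem_insert.1 hj with rfl | hj
      · exact ⟨i, fun δ hδ => hδ.2⟩
      · obtain ⟨c, hc⟩ := h4 j hj
        exact ⟨c, fun δ hδ => hc δ hδ.1⟩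
  obtain ⟨O', h1, -, ⟨δ, h2⟩, h3⟩ := key Finset.univ
  choose s hs using fun j => h3 j (Finset.mem_univ j)
  exact ⟨δ, h1 h2, s, fun j => hs j δ h2⟩

theorem po_add (x : ℂ) (p : ℝ × ℝ) : po x p = x + po 0 p := by
  unfold po; ring

/-- **Joint colourings.** One displacement for all points: in the open region `Z` of polar coordinates near the
direction `θ` there is a proper colouring of the points `Y j` by pure colours -/
theorem joint (h : Irr U T) {J : Type*} [Finite J] (Y : J → ℂ) {θ : ℝ} {Z : Set (ℝ × ℝ)} (hZ : IsOpen Z)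
    (hc : ∃ᶠ p in 𝓝 ((0 : ℝ), θ), p ∈ Z ∧ 0 < p.1) :
    ∃ s : J → Fin 6, (∃ᶠ p in 𝓝 ((0 : ℝ), θ), (p ∈ Z ∧ 0 < p.1) ∧ ∀ j, T (po (Y j) p) = {s j}) ∧
      ∀ i j, dist (Y i) (Y j) = 1 → s i ≠ s j := by
  have h1 : ∃ᶠ p in 𝓝 ((0 : ℝ), θ), ∃ s : J → Fin 6, (p ∈ Z ∧ 0 < p.1) ∧ ∀ j, T (po (Y j) p) = {s j} := by
    rw [frequently_iff]
    intro N hN
    obtain ⟨N', hN', hNo, hN0⟩ := _root_.mem_nhds_iff.1 hN
    obtain ⟨p, ⟨hp1, hp2⟩, hp3⟩ := (hc.and_eventually (hNo.mem_nhds hN0)).exists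
    -- the images of neighbourhoods of `p` are neighbourhoods
    have h2 : ∀ᶠ p' in 𝓝 p, (p' ∈ Z ∧ 0 < p'.1) ∧ p' ∈ N' :=
      Filter.Eventually.and (Filter.Eventually.and (hZ.mem_nhds hp1)
        (continuous_fst.continuousAt.eventually_const_lt hp2)) (hNo.mem_nhds hp3)
    have h3 : ∃ᶠ w in 𝓝 (po 0 p), ∃ s : J → Fin 6, ∀ j, T (Y j + w) = {s j} := by
      rw [frequently_iff]
      intro M hM
      obtain ⟨M', hM', hMo, hM0⟩ := _root_.mem_nhds_iff.1 hM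
      obtain ⟨δ, h4, s, h5⟩ := exists_all h Y hMo ⟨_, hM0⟩
      exact ⟨δ, hM' h4, s, h5⟩
    obtain ⟨p', ⟨s, hs⟩, h5, h6⟩ := ((freq_lift hp2 h3).and_eventually h2).exists
    exact ⟨p', hN' h6, s, h5, fun j => by rw [po_add]; exact hs j⟩
  obtain ⟨s, hs⟩ := H61.freq_exists h1
  refine ⟨s, hs, fun i j hij e => ?_⟩
  obtain ⟨p, -, hp⟩ := hs.exists
  have h2 : dist (po (Y i) p) (po (Y j) p) = 1 := by
    rw [po_add (Y i), po_add (Y j), dist_add_right]; exact hij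
  have h3 := sq_sub h (s i) (show po (Y i) p ∈ Sq T (s i) from hp i)
  have h4 := sq_sub h (s j) (show po (Y j) p ∈ Sq T (s j) from hp j)
  rw [← e] at h4
  exact h.mx.free (s i) _ h3 _ (subset_closure h4) h2

/-- prescribed colour at one point -/
theorem joint_at (h : Irr U T) {J : Type*} [Finite J] (Y : J → ℂ) {θ : ℝ} {Z : Set (ℝ × ℝ)} (hZ : IsOpen Z)
    {j0 : J} (hc : ∃ᶠ p in 𝓝 ((0 : ℝ), θ), p ∈ H357.PS (Sq T c) (Y j0) ∧ p ∈ Z) :
    ∃ s : J → Fin 6, s j0 = c ∧ (∃ᶠ p in 𝓝 ((0 : ℝ), θ), (p ∈ Z ∧ 0 < p.1) ∧ ∀ j, T (po (Y j) p) = {s j}) ∧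
      ∀ i j, dist (Y i) (Y j) = 1 → s i ≠ s j := by
  have hZ' : IsOpen (Z ∩ (po (Y j0)) ⁻¹' {w | T w = {c}}) :=
    hZ.inter ((isOpen_single h c).preimage (continuous_po _))
  obtain ⟨s, h1, h2⟩ := joint h Y hZ' (hc.mono fun p hp => ⟨⟨hp.2, hp.1.2⟩, hp.1.1⟩)
  refine ⟨s, ?_, h1.mono fun p hp => ⟨⟨hp.1.1.1, hp.1.2⟩, hp.2⟩, h2⟩
  obtain ⟨p, hp1, hp2⟩ := h1.exists
  have h3 : T (po (Y j0) p) = {c} := hp1.1.2
  rw [hp2 j0] at h3
  exact singleton_injective h3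

/-- joint colourings in a sector, index form -/
theorem joint_sector (h : Irr U T) {J : Type*} [Finite J] {K : ℕ} {a : ℕ → ℝ} (A : Tick K a) (Y : J → ℂ) (g : ℕ) :
    ∃ s : J → Fin 6, (∀ j, Cl (Sq T (s j)) (Y j) a 0 g) ∧ ∀ i j, dist (Y i) (Y j) = 1 → s i ≠ s j := by
  have hlt : ra a g < ra a (g + 1) := CK.ra_lt A (Nat.lt_succ_self g)
  obtain ⟨s, h1, h2⟩ := joint h Y (θ := (ra a g + ra a (g + 1)) / 2) isOpen_univ
    (freq_curve (γ := fun r => (r, (ra a g + ra a (g + 1)) / 2))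
      (((by fun_prop : Continuous fun r : ℝ => (r, (ra a g + ra a (g + 1)) / 2)).tendsto 0).mono_left
        nhdsWithin_le_nhds) (by
          filter_upwards [self_mem_nhdsWithin] with r hr
          exact ⟨trivial, hr⟩))
  exact ⟨s, fun j => cl_zero.2 ⟨_, ⟨by linarith, by linarith⟩, h1.mono fun p hp => ⟨hp.1.2, hp.2 j⟩⟩, h2⟩

/-- prescribed colour in a sector -/
theorem joint_sector_at (h : Irr U T) {J : Type*} [Finite J] {a : ℕ → ℝ} (Y : J → ℂ) {g : ℕ} {j0 : J}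
    (hc : Cl (Sq T c) (Y j0) a 0 g) :
    ∃ s : J → Fin 6, s j0 = c ∧ (∀ j, Cl (Sq T (s j)) (Y j) a 0 g) ∧
      ∀ i j, dist (Y i) (Y j) = 1 → s i ≠ s j := by
  obtain ⟨θ, hθ, h0⟩ := cl_zero.1 hc
  obtain ⟨s, h3, h1, h2⟩ := joint_at h Y (θ := θ) isOpen_univ (j0 := j0)
    (h0.mono fun p hp => ⟨hp, trivial⟩)
  exact ⟨s, h3, fun j => cl_zero.2 ⟨_, hθ, h1.mono fun p hp => ⟨hp.1.2, hp.2 j⟩⟩, h2⟩

/-! #### together with the letters -/

namespace IP

variable (I : IP U T x s P Q)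
include I

omit I in
theorem eq_pt (x : ℂ) (s : ℝ) : x = pt x s + dir (s + 3) := by
  have := sub_dir (pt x s) s
  rw [show pt (pt x s) (s + 3) = pt x s + dir (s + 3) from rfl] at this
  rw [← this]
  unfold pt dir; ring

theorem of_in {θ : ℝ} (hθ : Real.cos ((θ - s) * (Real.pi / 3)) < 0)
    (hp : ∃ᶠ p in 𝓝 ((0 : ℝ), θ), 0 < p.1 ∧ T (po (pt x s) p) = {c}) : c ∈ P := by
  have e1 : Real.cos ((θ - (s + 3)) * (Real.pi / 3)) = -Real.cos ((θ - s) * (Real.pi / 3)) := by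
    rw [show (θ - (s + 3)) * (Real.pi / 3) = (θ - s) * (Real.pi / 3) - Real.pi by ring, Real.cos_sub_pi]
  have h1 := ev_in (x := pt x s) (θ := θ) (u := s + 3) (by rw [e1]; linarith)
  rw [← eq_pt x s] at h1
  refine (I.inn c).2 (freq_po (P := fun y => T y = {c} ∧ dist y x < 1)
    ((hp.and_eventually h1).mono fun p h2 => ⟨h2.1.2, h2.2 h2.1.1⟩))

theorem of_out {θ : ℝ} (hθ : 0 < Real.cos ((θ - s) * (Real.pi / 3)))
    (hp : ∃ᶠ p in 𝓝 ((0 : ℝ), θ), 0 < p.1 ∧ T (po (pt x s) p) = {c}) : c ∈ Q := by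
  have e1 : Real.cos ((θ - (s + 3)) * (Real.pi / 3)) = -Real.cos ((θ - s) * (Real.pi / 3)) := by
    rw [show (θ - (s + 3)) * (Real.pi / 3) = (θ - s) * (Real.pi / 3) - Real.pi by ring, Real.cos_sub_pi]
  have h1 := ev_out (x := pt x s) (θ := θ) (u := s + 3) (by rw [e1]; linarith)
  rw [← eq_pt x s] at h1
  refine (I.out c).2 (freq_po (P := fun y => T y = {c} ∧ 1 < dist y x)
    ((hp.and_eventually h1).mono fun p h2 => ⟨h2.1.2, h2.2 h2.1.1⟩))

end IP

/-- the points and the letter points at the shift `τ` -/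
def pts {I J : Type*} (Y : I → ℂ) (X : J → ℂ) (t : J → ℝ) (τ : ℝ) : I ⊕ J → ℂ :=
  Sum.elim Y fun j => pt (X j) (t j + τ)

/-- **Joint colourings of the points and the letter points** in the open region `Z` near the direction `θ` of
displacements.  If `hc` names a colour at a point, put it into `Z`. -/
theorem FamP.joint (h : Irr U T) {I J : Type*} [Finite I] [Finite J] {l : Filter ℝ} {X : J → ℂ} {t : J → ℝ}
    {P Q : J → Set (Fin 6)} (F : FamP U T l X t P Q) (Y : I → ℂ) {θ : ℝ} {Z : Set (ℝ × ℝ)} (hZ : IsOpen Z)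
    (hc : ∃ᶠ p in 𝓝 ((0 : ℝ), θ), p ∈ Z ∧ 0 < p.1) :
    ∃ s : I ⊕ J → Fin 6, ∃ᶠ τ in l, (∀ j, IP U T (X j) (t j + τ) (P j) (Q j)) ∧
      (∃ᶠ p in 𝓝 ((0 : ℝ), θ), (p ∈ Z ∧ 0 < p.1) ∧ ∀ g, T (po (pts Y X t τ g) p) = {s g}) ∧
      ∀ g g', dist (pts Y X t τ g) (pts Y X t τ g') = 1 → s g ≠ s g' :=
  H61.freq_exists (P := fun (s : I ⊕ J → Fin 6) τ => (∀ j, IP U T (X j) (t j + τ) (P j) (Q j)) ∧
      (∃ᶠ p in 𝓝 ((0 : ℝ), θ), (p ∈ Z ∧ 0 < p.1) ∧ ∀ g, T (po (pts Y X t τ g) p) = {s g}) ∧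
      ∀ g g', dist (pts Y X t τ g) (pts Y X t τ g') = 1 → s g ≠ s g')
    (F.mono fun τ hτ => by
      obtain ⟨s, h1, h2⟩ := H556.joint h (pts Y X t τ) hZ hc
      exact ⟨s, hτ, h1, h2⟩)

end Vale.Agent.P032.H556
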